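import Vale.Agent.P167.N.Kit
import Vale.Agent.P167.N.Wd
import Vale.Agent.P167.QB.Maj

/-!
# P167, the range `0 < q < 1`, block Q-BRIDGE: constants

`KW θ`: lower bound of the constant `K` of the bumps; the masses of the loops of diameter less than
`dq K r` are then at most `dw θ`. `kq θ = 1 / cos² θ`.
-/

set_option autoImplicit false

namespace Vale.Agent.P167.N.QB

open Vale.Agent.P167.QB

variable {θ K : ℝ}

/-- Lower bound of the constant of the bumps. -/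
noncomputable def KW (θ : ℝ) : ℝ := 1 / dw θ

theorem KW_ten (hθ1 : Ang θ) : 10 ≤ KW θ := by
  unfold KW
  rw [le_div_iff₀ (dw_pos hθ1.lt)]
  linarith [dw_le (θ := θ)]

theorem KW_one (hθ1 : Ang θ) : 1 ≤ KW θ := by linarith [KW_ten hθ1]

theorem KW_pos (hθ1 : Ang θ) : 0 < KW θ := by linarith [KW_ten hθ1]

theorem KW_small (hθ1 : Ang θ) (hK : KW θ ≤ K) : K * (1 / (66 * K)) ^ 2 ≤ dw θ := by
  have h1 := KW_pos hθ1
  have hK0 : 0 < K := h1.trans_le hK
  have h2 := dw_pos hθ1.lt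
  have h3 : 1 ≤ K * dw θ := by
    unfold KW at hK
    rwa [div_le_iff₀ h2] at hK
  have h4 : K * (1 / (66 * K)) ^ 2 = 1 / (4356 * K) := by
    field_simp
    norm_num
  rw [h4, div_le_iff₀ (by positivity)]
  nlinarith

/-- The quadratic constant. -/
noncomputable def kq (θ : ℝ) : ℝ := 1 / Real.cos θ ^ 2

theorem kq_pos (hθ1 : Ang θ) : 0 < kq θ := by
  have := hθ1.cos_pos
  unfold kq
  positivity

theorem cos_pos' (_hθ0 : 0 < θ) (hθ1 : Ang θ) : 0 < Real.cos θ := hθ1.cos_pos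

theorem cos_lt (hθ1 : Ang θ) : Real.cos θ < 1 / 2 := by
  have := hθ1.kit.lt
  linarith

theorem sin_pos' (_hθ0 : 0 < θ) (hθ1 : Ang θ) : 0 < Real.sin θ := hθ1.sin_pos

/-- The bound of the weights is at least `2`. -/
theorem two_le_MW (hθ0 : 0 < θ) (hθ1 : Ang θ) : 2 ≤ MW θ := by
  have h1 := sin_pos' hθ0 hθ1
  have h2 := cos_pos' hθ0 hθ1
  unfold MW
  rw [le_div_iff₀ (by positivity)]
  nlinarith [Real.sin_sq_add_cos_sq θ, sq_nonneg (Real.sin θ - Real.cos θ)]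

/-- The bound of the weights is at least `(2 cos θ)⁻¹`. -/
theorem inv_le_MW (hθ0 : 0 < θ) (hθ1 : Ang θ) : (2 * Real.cos θ)⁻¹ ≤ MW θ := by
  have h1 := sin_pos' hθ0 hθ1
  have h2 := cos_pos' hθ0 hθ1
  have h3 := Real.sin_le_one θ
  unfold MW
  rw [one_div]
  refine inv_anti₀ (by positivity) ?_
  nlinarith

/-- Powers of `2 cos θ` with exponents `- 1, 0, 1`. -/
theorem zpow_bd (hθ0 : 0 < θ) (hθ1 : Ang θ) {s : ℤ} (hs : |s| ≤ 1) :
    (MW θ)⁻¹ ≤ (2 * Real.cos θ) ^ s ∧ (2 * Real.cos θ) ^ s ≤ MW θ := by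
  have h1 := two_le_MW hθ0 hθ1
  have h2 := inv_le_MW hθ0 hθ1
  have h3 := cos_pos' hθ0 hθ1
  have h4 := cos_lt hθ1
  have hM : (0 : ℝ) < MW θ := by linarith
  have h5 : (MW θ)⁻¹ ≤ 2 * Real.cos θ := by
    rw [inv_le_comm₀ hM (by positivity)]
    exact h2
  have h6 : (MW θ)⁻¹ ≤ 1 := inv_le_one_of_one_le₀ (by linarith)
  have h7 : s = 1 ∨ s = 0 ∨ s = -1 := by
    rw [abs_le] at hs
    omega
  rcases h7 with rfl | rfl | rfl
  · rw [zpow_one]
    exact ⟨h5, by linarith⟩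
  · rw [zpow_zero]
    exact ⟨h6, by linarith⟩
  · rw [zpow_neg_one]
    refine ⟨?_, h2⟩
    exact inv_anti₀ (by positivity) (by linarith)

end Vale.Agent.P167.N.QB
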