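import Vale.Agent.P167.N.QB.Cst
import Vale.Agent.P167.N.H562.Q.MQ1

/-!
# P167, the range `0 < q < 1`, block Q-BRIDGE: majorants in a polygon domain

The versions for `π / 3 < θ < π / 2` of the statements of `QB.Maj`; the constant `K` of the bumps is at
least `KW θ`.
-/

set_option autoImplicit false

namespace Vale.Agent.P167.N.QB

open Vale.Agent.P167.QB

open Finset Relation Vale.Agent.P167.BR Vale.Agent.P167.H562.SML Vale.Agent.P167.H45

open Vale.Agent.P167.E6 (IsPolygon Encloses dir face)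

open Vale.Agent.P167.H718 (IsXY IsCl Cl isCl_strand side_const)

open Vale.Agent.P167.QX (lo hi exists_xy lo_xy hi_xy wB)

open Vale.Agent.P167.H562.MAJ (bigs nb1 Sm core Sc mem_core mem_rect mem_sites_rect econ_rect
  rect near_site exists_ins_of_G W_zone W_poly conn_poly potD_W G_small sum_nb1 nm_tri nm_comm'
  mass_sum)

open Vale.Agent.P167.H562.QM (BumpsQ Far)

open Vale.Agent.P167.N.H562.QM (WtQ)

open Vale.Agent.P167.H562.GQ (wt0 abs_wt_le one_le_inv_cos)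

variable {D Z : Finset (ℤ × ℤ)} {ω : Cfg} {n : ℕ} {q : ZMod n → ℤ × ℤ} {A B : Finset Ed}
  {a b m : ℕ} {θ K : ℝ} {k l : ℕ} {r R : ℤ}

/-- The masses of the small loops. -/
theorem small_dw (hθ1 : Ang θ) (hK : KW θ ≤ K) (h : Sc K r) {g : ℤ × ℤ → ℝ}
    (hg : ∀ z, |g z| ≤ K / (r : ℝ) ^ 2) (ω : Cfg) (ℓ : Finset Ed) (hℓ : IsLoop ω ℓ)
    (hs : Small (dq K r) ℓ) : |G g ℓ| ≤ dw θ := by
  have h8 : (8 : ℝ) ≤ r := by exact_mod_cast h.r8
  have h1 := bd_G (κ := 1 / (66 * K)) (ρ := r) (Cm := K) (by linarith) (by linarith [h.one_le]) hg ω ℓ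
    (dq K r) hℓ le_rfl hs
  refine h1.trans (le_trans (le_of_eq ?_) (KW_small hθ1 hK))
  have h2 : (r : ℝ) ≠ 0 := by linarith
  unfold dq
  field_simp

theorem small_pi (hθ1 : Ang θ) (hK : KW θ ≤ K) (h : Sc K r) {g : ℤ × ℤ → ℝ}
    (hg : ∀ z, |g z| ≤ K / (r : ℝ) ^ 2) (ω : Cfg) (ℓ : Finset Ed) (hℓ : IsLoop ω ℓ)
    (hs : Small (dq K r) ℓ) : |G g ℓ| ≤ Real.pi / 2 - θ := by
  have h1 := small_dw hθ1 hK h hg ω ℓ hℓ hs
  have h2 : dw θ ≤ (Real.pi / 2 - θ) / 2 := min_le_right _ _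
  have h3 := hθ1.lt
  linarith

section

variable (hθ0 : 0 < θ) (hθ1 : Ang θ)

include hθ0 hθ1

theorem wB_bd (q : ZMod n → ℤ × ℤ) (D : Finset (ℤ × ℤ)) (k : ℕ) (A : Finset Ed) (t : ℝ) :
    |wB θ (gB θ) q D k A t| ≤ MW θ := by
  have h1 := sin_pos' hθ0 hθ1
  have h3 : Real.sin θ ≤ 1 := Real.sin_le_one θ
  have h4 : Real.cos θ ≤ 1 := Real.cos_le_one θ
  have h5 : 0 < Real.cos θ := cos_pos' hθ0 hθ1
  have hs : Real.sin (2 * θ) = 2 * Real.sin θ * Real.cos θ := Real.sin_two_mul θ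
  have key : ∀ x y : ℝ, |x| ≤ 1 → Real.sin θ * Real.cos θ ≤ y → |x / y| ≤ MW θ := by
    intro x y hx hy
    have hy0 : 0 < y := lt_of_lt_of_le (by positivity) hy
    rw [abs_div, abs_of_pos hy0]
    unfold MW
    exact div_le_div₀ zero_le_one hx (by positivity) hy
  unfold wB
  split_ifs
  · exact key _ _ (Real.abs_cos_le_one _) (by nlinarith)
  · exact key _ _ (Real.abs_cos_le_one _) (by nlinarith)
  · exact key _ _ (Real.abs_sin_le_one _) (by rw [hs]; nlinarith [mul_pos h1 h5])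
  · exact key _ _ (Real.abs_sin_le_one _) (by nlinarith)

theorem wtq (q : ZMod n → ℤ × ℤ) (D : Finset (ℤ × ℤ)) (k : ℕ) :
    WtQ θ (MW θ) D (wB θ (gB θ) q D k) where
  a0 := hθ0
  a1 := hθ1
  M1 := by have := two_le_MW hθ0 hθ1; linarith
  loop A t hA := by
    unfold wB H562.wt
    rw [if_pos hA]
  bd A t := wB_bd hθ0 hθ1 q D k A t

end

section

variable (hq : IsPolygon q) (hD : Encloses q D)

include hq hD

open Classical in
/-- **The majorant of the product over the pieces.** -/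
theorem maj_gen {ι : Type*} {J : Finset ι} {i : ι → ℕ} {r : ι → ℤ} {g : ι → ℤ × ℤ → ℝ} {t : ι → ℝ}
    {M : ℝ} {w : Finset Ed → ℝ → ℝ} (hw : WtQ θ M D w) (hK : KW θ ≤ K) (h : ∀ j ∈ J, Sc K (r j))
    (hF : ∀ j ∈ J, Flt D (q (i j)) (2 * r j)) (hl : ∀ j ∈ J, i j < n)
    (h0 : ∀ j ∈ J, q 0 ∉ sites (hbox (q (i j)) (2 * r j)))
    (hg : ∀ j ∈ J, ∀ z, |g j z| ≤ K / (r j : ℝ) ^ 2)
    (hs : ∀ j ∈ J, ∀ z, g j z ≠ 0 → z ∈ sites (core K (q (i j)) (r j)))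
    (ht : ∀ j ∈ J, ∑ᶠ z, g j z = t j)
    (hsep : ∀ j ∈ J, ∀ j' ∈ J, j ≠ j' →
      Disjoint (hbox (q (i j)) (2 * r j)) (hbox (q (i j')) (2 * r j'))) (ω : Cfg) :
    ∏ A ∈ pcs ω D, |w A (mass D (q 0) (fun z => ∑ j ∈ J, g j z) A)| ≤
      (∏ j ∈ J, M ^ (bigs D (hbox (q (i j)) (r j)) (dq K (r j)) ω).card *
        Real.exp (-(Real.tan θ * Sm (g j) (dq K (r j)) ω))) *
      ∏ A ∈ (pcs ω D).filter (Far J D (fun j => hbox (q (i j)) (r j)) (fun j => dq K (r j))),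
        |w A (∑ j ∈ J, if Ard q (i j) A ∧ ¬ Vz (hbox (q (i j)) (r j)) A then t j else 0)| := by
  have hB := bumps_flat hq hD h hF hg hs hsep
  have hsm : ∀ j ∈ J, ∀ (ω : Cfg) (ℓ : Finset Ed), IsLoop ω ℓ → Small (dq K (r j)) ℓ →
      |G (g j) ℓ| ≤ Real.pi / 2 - θ := fun j hj ω ℓ hℓ hsm =>
    small_pi hw.a1 hK (h j hj) (hg j hj) ω ℓ hℓ hsm
  have h1 := Vale.Agent.P167.N.H562.QM.BumpsQ.maj_det hB hw hsm (T := pcs ω D) (T' := pcs ω D)
    (ω := ω) subset_rfl subset_rfl (fun _ _ => trivial) (fun A hA _ _ _ _ _ => hA)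
  refine h1.trans (le_of_eq ?_)
  rw [Finset.sdiff_self, card_empty, pow_zero, one_mul]
  congr 1
  · refine prod_congr rfl fun j hj => ?_
    have h3 := sum_nb1 (Z := fun j => core K (q (i j)) (r j)) (d := fun j => dq K (r j)) (F := g)
      (j := j) (hs j hj) ω
    rw [h3]
  · refine prod_congr rfl fun A hA => ?_
    rw [mem_filter] at hA
    rw [mass_sum]
    congr 2
    refine sum_congr rfl fun j hj => ?_
    exact Vale.Agent.P167.QB.mass_far hq hD (h j hj) (hF j hj) (hl j hj) (h0 j hj) (hs j hj) (ht j hj)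
      hA.1 hA.2.1 (hA.2.2 j hj)

end

end Vale.Agent.P167.N.QB
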