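import Vale.Agent.P167.N.Base.ArmShp
import Vale.Agent.P167.QB.Pr1

/-! generated from Vale.Agent.P167.QB.Pr1 (q < 1 port) -/

set_option autoImplicit false

namespace Vale.Agent.P167.N.QB

open Vale.Agent.P167.QB

open Finset Relation Vale.Agent.P167.FK Vale.Agent.P167.FKA

open Vale.Agent.P145.FB (PStep PConn)

open Vale.Agent.P167.BR (hbox mem_hbox Flt Iso Crs Vz fbx)

open Vale.Agent.P167.H562.QM (FltQ)

open Vale.Agent.P167.H632 (HX hp an)

open Vale.Agent.P167.H259 (f_markov f_fkg f_comp f_comp2)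

variable {Q : ℝ} {b : ℤ × ℤ} {r R : ℤ} {ω ω' : Cfg}

/-- The primal arm of the half annulus above a flat free side. -/
theorem armh (hQ : Kit Q) : ∃ α C : ℝ, 0 < α ∧ 0 < C ∧
    ∀ (b : ℤ × ℤ) (r R : ℤ) (ζ : Cfg), 1 ≤ r → r ≤ R → Good ζ →
      (∀ v ∈ Bq b R \ Bq b r, v.2 < b.2 → ζ v = false) →
      Ex Q (hbox b R \ hbox b r) ζ ({ω | ArmPx b r R ω}.indicator 1) ≤ C * ((r : ℝ) / R) ^ α := by
  obtain ⟨α, C, hα, hC, h⟩ := hQ.armShp
  refine ⟨α, C, hα, hC, fun b r R ζ hr hrR hζ hcl => ?_⟩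
  have e : hbox b R ∩ H635.Ann b r R = hbox b R \ hbox b r := by
    ext v
    simp only [H635.Ann, mem_inter, mem_sdiff, mem_hbox_iff]
    tauto
  have hs : H635.Shp (hbox b R) b r R := H635.shp_ge2 (c := b.2) fun v hv => by
    have h1 := (mem_sdiff.1 hv).1
    rw [mem_hbox_iff]
    exact ⟨fun h' => h'.2, fun h' => ⟨h1, h'⟩⟩
  have h1 := h b r R (hbox b R) hr hrR hs ζ hζ fun v hv hvD => ?_
  · rw [e] at h1
    exact h1
  · refine hcl v hv ?_
    by_contra hcon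
    exact hvD (mem_hbox_iff.2 ⟨(mem_sdiff.1 hv).1, by omega⟩)

/-- **Arms at a flat free side.** -/
theorem arm_flat (hQ : Kit Q) (_hR : RSW Q) : ∃ α C : ℝ, 0 < α ∧ 0 < C ∧
    ∀ (D : Finset (ℤ × ℤ)) (η : Cfg) (b : ℤ × ℤ) (r R : ℤ) (G : Cfg → ℝ), 1 ≤ r → r ≤ R →
      FltQ D η b R false false → Good η → (∀ ω, 0 ≤ G ω) → Ind (hbox b R \ hbox b r) G →
      Ex Q D η (fun ω => G ω * {ω | HArm b r R ω}.indicator 1 ω) ≤
        C * ((r : ℝ) / R) ^ α * Ex Q D η G := by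
  have hQ0 : 0 < Q := hQ.pos
  obtain ⟨α, C, hα, hC, hdec⟩ := armh hQ
  refine ⟨α, C, hα, hC, fun D η b r R G hr hrR hF hη hG0 hG => ?_⟩
  set U := hbox b R \ hbox b r with hU
  have hUD : U ⊆ D := sdiff_subset.trans (fltQ_sub hF)
  rw [FKA.markov f_markov hQ0 hUD hη hG, ← Ex_mul_left]
  refine Ex_mono hQ0 fun S hS => ?_
  set ζ := cf D η S with hζ
  have hζg : Good ζ := f_good.1 D η S hη
  rw [mul_comm]
  refine mul_le_mul_of_nonneg_right ?_ (hG0 _)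
  have h1 : Ex Q U ζ ({ω | HArm b r R ω}.indicator 1) ≤
      Ex Q U ζ ({ω | ArmPx b r R ω}.indicator 1) := by
    refine Ex_mono hQ0 fun S _ => ?_
    exact Set.indicator_le_indicator_of_subset (fun ω h => arm_of_harm hrR h)
      (fun _ => zero_le_one) _
  refine h1.trans (hdec b r R ζ hr hrR hζg fun v hv hv2 => ?_)
  have h3 := nm_of_Bq (mem_sdiff.1 hv).1
  have h4 : v ∉ D := fun h => absurd ((hF.dom v h3).1 h) (by omega)
  have h5 := hF.out v h3 (by omega)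
  rw [hζ, cf_out h4, h5]
  split_ifs <;> rfl

end Vale.Agent.P167.N.QB
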