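import Vale.Agent.P167.N.Kit
import Vale.Agent.P167.H635.Bdy
import Vale.Agent.P167.N.QB.Pr1
import Vale.Agent.P167.QB.Pr2

/-!
# P167, `0 < q < 1`, block QB: mixing with a rate at a flat free side

From the arm bound of the half annulus and the ratio mixing `H635.bdy_two_mul`.
-/

set_option autoImplicit false

namespace Vale.Agent.P167.N.QB

open Vale.Agent.P167.QB

open Finset Relation Vale.Agent.P167.FK Vale.Agent.P167.FKA

open Vale.Agent.P167.BR (hbox mem_hbox hbox_mono)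

open Vale.Agent.P167.H562.QM (FltQ)

open Vale.Agent.P167.H259 (f_markov)

open Vale.Agent.P167.H635 (ArmAt Cl Ann bdy_two_mul)

variable {Q : ℝ} {b : ℤ × ℤ} {r R : ℤ} {ω ω' : Cfg}

/-- The trace of the box on a domain with a flat free side. -/
structure Tr (D : Finset (ℤ × ℤ)) (η : Cfg) (b : ℤ × ℤ) (R : ℤ) : Prop where
  tr : D ∩ Bq b R = hbox b R
  cl : Cl (Bq b R) D η

theorem tr_flt {D : Finset (ℤ × ℤ)} {η : Cfg} (h : FltQ D η b R false false) : Tr D η b R where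
  tr := by
    ext v
    rw [mem_inter, mem_hbox_iff]
    constructor
    · rintro ⟨h1, h2⟩
      exact ⟨h2, (h.dom v (nm_of_Bq h2)).1 h1⟩
    · rintro ⟨h1, h2⟩
      exact ⟨(h.dom v (nm_of_Bq h1)).2 h2, h1⟩
  cl v hv hvD := by
    have h2 := nm_of_Bq hv
    have h3 : ¬ b.2 ≤ v.2 := fun h' => hvD ((h.dom v h2).2 h')
    have h4 := h.out v h2 (by omega)
    split_ifs at h4 <;> exact h4

theorem tr_box (b : ℤ × ℤ) {R R' : ℤ} (h : R ≤ R') : Tr (hbox b R') eta0 b R where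
  tr := by
    ext v
    rw [mem_inter, mem_hbox_iff, mem_hbox_iff]
    constructor
    · rintro ⟨⟨_, h1⟩, h2⟩
      exact ⟨h2, h1⟩
    · rintro ⟨h1, h2⟩
      exact ⟨⟨H635.bq_mono h h1, h2⟩, h1⟩
  cl v hv hvD := rfl

/-- The arm bound at a flat free side. -/
theorem armAt_flat {α C : ℝ} (h : ∀ (b : ℤ × ℤ) (r R : ℤ) (ζ : Cfg), 1 ≤ r → r ≤ R → Good ζ →
      (∀ v ∈ Bq b R \ Bq b r, v.2 < b.2 → ζ v = false) →
      Ex Q (hbox b R \ hbox b r) ζ ({ω | ArmPx b r R ω}.indicator 1) ≤ C * ((r : ℝ) / R) ^ α)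
    (hr : 1 ≤ r) (hrR : r ≤ R) {D : Finset (ℤ × ℤ)} {η : Cfg} (hD : Tr D η b R) :
    ArmAt Q b r R D (C * ((r : ℝ) / R) ^ α) := by
  intro ζ hζ hcl
  have e : D ∩ Ann b r R = hbox b R \ hbox b r := by
    ext v
    have h1 := Finset.ext_iff.1 hD.tr v
    simp only [Ann, mem_inter, mem_sdiff, mem_hbox_iff] at h1 ⊢
    tauto
  rw [e]
  refine h b r R ζ hr hrR hζ fun v hv hv2 => hcl v hv fun hvD => ?_
  have h1 := Finset.ext_iff.1 hD.tr v
  simp only [mem_inter, mem_hbox_iff] at h1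
  have h2 := (h1.1 ⟨hvD, (mem_sdiff.1 hv).1⟩).2
  omega

section core

variable {D : Finset (ℤ × ℤ)} {η : Cfg} {F G : Cfg → ℝ} {p : ℝ}

/-- Nonnegative functions. -/
theorem mix_pos (hQ : Kit Q) (hrR : r ≤ R) (hp : ArmAt Q b r R D p) (hp1 : p ≤ 1 / 2)
    (hD : Tr D η b R) (hη : Good η) (hF0 : ∀ ω, 0 ≤ F ω) (hF : Loc (hbox b r) F)
    (hG0 : ∀ ω, 0 ≤ G ω) (hG : Ind (hbox b R) G) :
    |Ex Q D η (fun ω => F ω * G ω) - Ex Q (hbox b R) eta0 F * Ex Q D η G| ≤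
      8 * p * (Ex Q (hbox b R) eta0 F * Ex Q D η G) := by
  have hp0 : 0 ≤ p := hp.nonneg hQ.pos
  have hb := tr_box b (le_refl R)
  have e : D ∩ Bq b R = hbox b R ∩ Bq b R := by rw [hD.tr, hb.tr]
  have hV : hbox b r ⊆ Bq b r := hbox_sub_Bq
  have hVD : hbox b r ⊆ D := fun v hv => by
    have h1 : v ∈ D ∩ Bq b R := by
      rw [hD.tr]
      exact hbox_mono hrR hv
    exact (mem_inter.1 h1).1
  have h := bdy_two_mul hQ.pos hQ.le hrR hp (by linarith) e hVD hV hF0 hF hη f_good.2.1 hD.cl hb.cl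
    hG0 (by rw [hD.tr]; exact hG)
  obtain ⟨h1, h2⟩ := h
  set x := Ex Q D η G * Ex Q (hbox b R) eta0 F with hx
  have e1 : Ex Q D η (fun ω => F ω * G ω) = Ex Q D η (fun ω => G ω * F ω) :=
    Ex_congr fun S _ => mul_comm _ _
  rw [e1, mul_comm (Ex Q (hbox b R) eta0 F), ← hx]
  set y := Ex Q D η (fun ω => G ω * F ω) with hy
  have hx0 : 0 ≤ x := mul_nonneg (Ex_nonneg hQ.pos fun _ _ => hG0 _)
    (Ex_nonneg hQ.pos fun _ _ => hF0 _)
  have hq : 1 / 4 ≤ (1 - p) ^ 2 := by nlinarith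
  have hq2 : 1 - 2 * p ≤ (1 - p) ^ 2 := by nlinarith
  rw [abs_le]
  constructor
  · nlinarith [mul_nonneg hp0 hx0]
  · -- y ≤ (1 + 8 p) x
    have h3 : 1 ≤ (1 + 8 * p) * (1 - p) ^ 2 := by
      nlinarith [mul_nonneg hp0 (by linarith : (0 : ℝ) ≤ 1 / 2 - p), mul_nonneg hp0 hp0,
        mul_nonneg (mul_nonneg hp0 hp0) (by linarith : (0 : ℝ) ≤ 1 / 2 - p)]
    have hy0 : 0 ≤ y := Ex_nonneg hQ.pos fun _ _ => mul_nonneg (hG0 _) (hF0 _)
    have h4 : y ≤ (1 + 8 * p) * ((1 - p) ^ 2 * y) := by nlinarith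
    have h5 := mul_le_mul_of_nonneg_left h1 (by linarith : (0 : ℝ) ≤ 1 + 8 * p)
    linarith

/-- Signed functions. -/
theorem mix_sgn (hQ : Kit Q) (hrR : r ≤ R) (hp : ArmAt Q b r R D p) (hp1 : p ≤ 1 / 2)
    (hD : Tr D η b R) (hη : Good η) (hF : Loc (hbox b r) F) (hG : Ind (hbox b R) G) :
    |Ex Q D η (fun ω => F ω * G ω) - Ex Q (hbox b R) eta0 F * Ex Q D η G| ≤
      8 * p * Ex Q (hbox b R) eta0 (fun ω => |F ω|) * Ex Q D η (fun ω => |G ω|) := by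
  set Fp : Cfg → ℝ := fun ω => max (F ω) 0 with hFp
  set Fm : Cfg → ℝ := fun ω => max (-F ω) 0 with hFm
  set Gp : Cfg → ℝ := fun ω => max (G ω) 0 with hGp
  set Gm : Cfg → ℝ := fun ω => max (-G ω) 0 with hGm
  have pm : ∀ x : ℝ, x = max x 0 - max (-x) 0 ∧ |x| = max x 0 + max (-x) 0 := by
    intro x
    rcases le_total 0 x with h | h
    · rw [max_eq_left h, max_eq_right (by linarith), abs_of_nonneg h]
      constructor <;> ring
    · rw [max_eq_right h, max_eq_left (by linarith), abs_of_nonpos h]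
      constructor <;> ring
  have eF : F = fun ω => Fp ω - Fm ω := funext fun ω => (pm (F ω)).1
  have eG : G = fun ω => Gp ω - Gm ω := funext fun ω => (pm (G ω)).1
  have eF' : (fun ω => |F ω|) = fun ω => Fp ω + Fm ω := funext fun ω => (pm (F ω)).2
  have eG' : (fun ω => |G ω|) = fun ω => Gp ω + Gm ω := funext fun ω => (pm (G ω)).2
  have hFp0 : ∀ ω, 0 ≤ Fp ω := fun ω => le_max_right _ _
  have hFm0 : ∀ ω, 0 ≤ Fm ω := fun ω => le_max_right _ _
  have hGp0 : ∀ ω, 0 ≤ Gp ω := fun ω => le_max_right _ _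
  have hGm0 : ∀ ω, 0 ≤ Gm ω := fun ω => le_max_right _ _
  have lFp : Loc (hbox b r) Fp := fun ω ω' h => by simp only [hFp, hF ω ω' h]
  have lFm : Loc (hbox b r) Fm := fun ω ω' h => by simp only [hFm, hF ω ω' h]
  have iGp : Ind (hbox b R) Gp := fun ω ω' h => by simp only [hGp, hG ω ω' h]
  have iGm : Ind (hbox b R) Gm := fun ω ω' h => by simp only [hGm, hG ω ω' h]
  have h1 := abs_le.1 (mix_pos hQ hrR hp hp1 hD hη hFp0 lFp hGp0 iGp)
  have h2 := abs_le.1 (mix_pos hQ hrR hp hp1 hD hη hFp0 lFp hGm0 iGm)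
  have h3 := abs_le.1 (mix_pos hQ hrR hp hp1 hD hη hFm0 lFm hGp0 iGp)
  have h4 := abs_le.1 (mix_pos hQ hrR hp hp1 hD hη hFm0 lFm hGm0 iGm)
  have e1 : Ex Q D η (fun ω => F ω * G ω) = Ex Q D η (fun ω => Fp ω * Gp ω) -
      Ex Q D η (fun ω => Fp ω * Gm ω) - (Ex Q D η (fun ω => Fm ω * Gp ω) -
      Ex Q D η (fun ω => Fm ω * Gm ω)) := by
    rw [← Ex_sub, ← Ex_sub, ← Ex_sub]
    refine Ex_congr fun S _ => ?_
    have a1 : F (cf D η S) = Fp (cf D η S) - Fm (cf D η S) := congrFun eF (cf D η S)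
    have a2 : G (cf D η S) = Gp (cf D η S) - Gm (cf D η S) := congrFun eG (cf D η S)
    rw [a1, a2]
    ring
  have e2 : Ex Q (hbox b R) eta0 F = Ex Q (hbox b R) eta0 Fp - Ex Q (hbox b R) eta0 Fm := by
    rw [← Ex_sub]
    exact Ex_congr fun S _ => congrFun eF _
  have e3 : Ex Q D η G = Ex Q D η Gp - Ex Q D η Gm := by
    rw [← Ex_sub]
    exact Ex_congr fun S _ => congrFun eG _
  have e4 : Ex Q (hbox b R) eta0 (fun ω => |F ω|) =
      Ex Q (hbox b R) eta0 Fp + Ex Q (hbox b R) eta0 Fm := by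
    rw [← Ex_add]
    exact Ex_congr fun S _ => congrFun eF' _
  have e5 : Ex Q D η (fun ω => |G ω|) = Ex Q D η Gp + Ex Q D η Gm := by
    rw [← Ex_add]
    exact Ex_congr fun S _ => congrFun eG' _
  rw [e1, e2, e3, e4, e5, abs_le]
  constructor <;> nlinarith [h1.1, h1.2, h2.1, h2.2, h3.1, h3.2, h4.1, h4.2]

end core

/-- **Mixing with a rate at a flat free side**, from the arm bound. -/
theorem mix_flat (hQ : Kit Q) (_hR : RSW Q) : ∃ (K : ℤ) (α C : ℝ), 1 ≤ K ∧ 0 < α ∧ 0 < C ∧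
    ∀ (b : ℤ × ℤ) (r R : ℤ), 1 ≤ r → K * r ≤ R → ∀ F : Cfg → ℝ, Loc (hbox b r) F →
      (∀ (D : Finset (ℤ × ℤ)) (η : Cfg), FltQ D η b R false false → Good η →
        ∀ G : Cfg → ℝ, Ind (hbox b R) G →
          |Ex Q D η (fun ω => F ω * G ω) - Ex Q (hbox b R) eta0 F * Ex Q D η G| ≤
            C * ((r : ℝ) / R) ^ α * Ex Q (hbox b R) eta0 (fun ω => |F ω|) *
              Ex Q D η (fun ω => |G ω|)) ∧
      ∀ R' : ℤ, R ≤ R' → |Ex Q (hbox b R) eta0 F - Ex Q (hbox b R') eta0 F| ≤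
        C * ((r : ℝ) / R) ^ α * Ex Q (hbox b R) eta0 (fun ω => |F ω|) := by
  obtain ⟨α, C, hα, hC, hdec⟩ := armh hQ
  -- the ratio
  obtain ⟨n, hn, hn4⟩ : ∃ n : ℕ, C * ((1 : ℝ) / n) ^ α ≤ 1 / 2 ∧ 1 ≤ n := by
    have h1 : Filter.Tendsto (fun n : ℕ => C * ((1 : ℝ) / n) ^ α) Filter.atTop (nhds 0) := by
      have h2 : Filter.Tendsto (fun n : ℕ => (1 : ℝ) / n) Filter.atTop (nhds 0) :=
        tendsto_const_div_atTop_nhds_zero_nat 1
      have h3 := (h2.rpow_const (p := α) (Or.inr hα.le)).const_mul C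
      rw [Real.zero_rpow hα.ne', mul_zero] at h3
      exact h3
    obtain ⟨n, h2, h3⟩ := ((h1.eventually (ge_mem_nhds (show (0 : ℝ) < 1 / 2 by norm_num))).and
      (Filter.eventually_ge_atTop 1)).exists
    exact ⟨n, h2, h3⟩
  have hn1 : (1 : ℝ) ≤ n := by exact_mod_cast hn4
  refine ⟨n, α, 8 * C, by exact_mod_cast hn4, hα, by positivity, fun b r R hr hKr F hF => ?_⟩
  have hr' : (1 : ℝ) ≤ r := by exact_mod_cast hr
  have hKr' : (n : ℝ) * r ≤ R := by exact_mod_cast hKr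
  have hrR' : (r : ℝ) ≤ R := by nlinarith
  have hrR : r ≤ R := by exact_mod_cast hrR'
  have hR0 : (0 : ℝ) < R := by linarith
  have hp1 : C * ((r : ℝ) / R) ^ α ≤ 1 / 2 := by
    refine le_trans (mul_le_mul_of_nonneg_left ?_ hC.le) hn
    refine Real.rpow_le_rpow (by positivity) ?_ hα.le
    rw [div_le_div_iff₀ hR0 (by linarith)]
    linarith
  constructor
  · intro D η hFl hη G hG
    have h := mix_sgn hQ hrR (armAt_flat hdec hr hrR (tr_flt hFl)) hp1 (tr_flt hFl) hη hF hG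
    refine h.trans (le_of_eq ?_)
    ring
  · intro R' hRR'
    have hT := tr_box b hRR'
    have h := mix_sgn hQ hrR (armAt_flat hdec hr hrR hT) hp1 hT f_good.2.1 hF (G := fun _ => 1)
      (fun _ _ _ => rfl)
    simp only [mul_one, abs_one, Ex_const hQ.pos] at h
    rw [abs_sub_comm] at h
    refine h.trans (le_of_eq ?_)
    ring

end Vale.Agent.P167.N.QB
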