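import Vale.Agent.P167.N.Kit
import Vale.Agent.P167.N.QB.Pr1
import Vale.Agent.P167.N.QB.Pr2
import Vale.Agent.P167.N.QB.Pr4
import Vale.Agent.P167.N.QB.Cst
import Vale.Agent.P167.QB.Pr6

/-! generated from Vale.Agent.P167.QB.Pr6 (q < 1 port) -/

set_option autoImplicit false

namespace Vale.Agent.P167.N.QB

open Vale.Agent.P167.QB

open Finset Relation Vale.Agent.P167.BR Vale.Agent.P167.FK

open Vale.Agent.P167.E6 (IsPolygon Encloses dir face)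

open Vale.Agent.P167.QX (lo hi exists_xy lo_xy hi_xy wB)

open Vale.Agent.P167.FKA (Ind Loc Ex_mono Ex_congr Ex_mul_left Ex_sub Ex_const Ex_nonneg abs_Ex_le)

open Vale.Agent.P167.H562.QM (FltQ)

variable {D Z : Finset (ℤ × ℤ)} {ω ω' η : Cfg} {n : ℕ} {q : ZMod n → ℤ × ℤ} {A B : Finset Ed}
  {b : ℤ × ℤ} {θ : ℝ} {k l : ℕ} {r R R₁ R₂ : ℤ} {f fc F : ℤ × ℤ → ℝ} {σ : ℤ}

/-- The local functional of a negative bump is nonnegative. -/
theorem FL_nonneg (hθ0 : 0 < θ) (hθ1 : Ang θ) (h0 : ∀ z, 0 ≤ f z)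
    (hf : ∀ z, f z ≠ 0 → z ∈ sites (hbox b R)) (hs : ∑ᶠ z, f z = θ) :
    0 ≤ FL θ b r R σ (-f) ω := by
  have hθ1_lt := hθ1.lt
  classical
  have hpi := Real.pi_pos
  have hx : 0 < Real.sin θ := Real.sin_pos_of_pos_of_lt_pi hθ0 (by linarith)
  have hc : 0 < Real.cos θ := Real.cos_pos_of_mem_Ioo ⟨by linarith, by linarith⟩
  unfold FL
  split_ifs
  · refine prod_nonneg fun A _ => mul_nonneg ?_ (zpow_nonneg (by linarith) _)
    obtain ⟨h1, h2⟩ := mass_bd' (A := A) (p := top b R) (Subset.refl (hbox b R)) h0 hf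
    rw [hs] at h2
    rw [mass_neg]
    set t := mass (hbox b R) (top b R) f A
    unfold wL
    split_ifs
    · exact div_nonneg (Real.cos_nonneg_of_mem_Icc ⟨by linarith, by linarith⟩) hc.le
    · exact div_nonneg (Real.sin_nonneg_of_nonneg_of_le_pi (by linarith) (by linarith)) hx.le
    · exact div_nonneg (Real.sin_nonneg_of_nonneg_of_le_pi (by linarith) (by linarith))
        (Real.sin_nonneg_of_nonneg_of_le_pi (by linarith) (by linarith))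
  · exact le_rfl

section

variable (hq : IsPolygon q) (hD : Encloses q D)

include hq hD

end

/-- **The assembly at `c = q l`.** `Yc` is the local majorant, `G₀` the majorant of the rest. -/
theorem asmC (hθ0 : 0 < θ) (hθ1 : Ang θ) (hR : RSW (2 * Real.cos θ)) :
    ∃ (K : ℤ) (α C : ℝ), 1 ≤ K ∧ 0 < α ∧ 0 < C ∧
    ∀ (n : ℕ) (q : ZMod n → ℤ × ℤ) (D : Finset (ℤ × ℤ)), IsPolygon q → Encloses q D →
    ∀ (η : Cfg) (k l : ℕ) (r R₁ R₂ R₃ : ℤ) (fc F : ℤ × ℤ → ℝ) (Yc G₀ : Cfg → ℝ) (Mc C₀ : ℝ),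
      Good η → l < n → 1 ≤ r → 4 * r + 2 ≤ R₁ → K * R₁ ≤ R₂ → R₂ + 4 ≤ R₃ →
      FltQ D η (q l) R₃ false false → q 0 ∉ sites (hbox (q l) R₃) → (l : ℤ) + R₃ ≤ k →
      (∀ z, 0 ≤ fc z) → (∀ z, fc z ≠ 0 → z ∈ sites (hbox (q l) r)) → ∑ᶠ z, fc z = θ →
      (∀ ζ : Cfg, ∀ A ∈ pcs ζ D, InnP (q l) R₃ A → mass D (q 0) F A = 0) →
      0 ≤ Mc → 0 ≤ C₀ → (∀ ω, 0 ≤ Yc ω) → (∀ ω, 0 ≤ G₀ ω) → Ind (hbox (q l) R₃) G₀ →
      (∀ (D' : Finset (ℤ × ℤ)) (η' : Cfg), FltQ D' η' (q l) (4 * r) false false → Good η' →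
        ∀ G : Cfg → ℝ, (∀ ω, 0 ≤ G ω) → Ind (hbox (q l) (4 * r)) G →
          Ex (2 * Real.cos θ) D' η' (fun ω => G ω * Yc ω) ≤
            Mc * Ex (2 * Real.cos θ) D' η' G) →
      (∀ ω, FL θ (q l) r R₁ (-1) (-fc) ω ≤ MW θ * Yc ω) →
      (∀ ω, |XG θ q D k (fun z => F z - fc z) ω| ≤ C₀ * (G₀ ω * Yc ω)) →
      (∀ ω, |XG θ q D k (fun z => F z - dlt (q l) θ z) ω| ≤ C₀ * G₀ ω) →
      |Ex (2 * Real.cos θ) D η (XG θ q D k (fun z => F z - fc z)) -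
        zC θ (q l) r R₁ R₂ fc *
          Ex (2 * Real.cos θ) D η (XG θ q D k (fun z => F z - dlt (q l) θ z))| ≤
        C * (((r : ℝ) / R₁) ^ α + ((R₁ : ℝ) / R₂) ^ α + ((R₂ : ℝ) / R₃) ^ α) *
          C₀ * Mc * Ex (2 * Real.cos θ) D η G₀ := by
  have hθ1_lt := hθ1.lt
  have hpi := Real.pi_pos
  have hx : 0 < Real.sin θ := Real.sin_pos_of_pos_of_lt_pi hθ0 (by linarith)
  have hc : 0 < Real.cos θ := hθ1.cos_pos
  have hM : 0 < MW θ := by linarith [two_le_MW hθ0 hθ1]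
  have hQ : Kit (2 * Real.cos θ) := hθ1.kit
  have hQ0 : 0 < 2 * Real.cos θ := hθ1.kit.pos
  obtain ⟨K, α, C, hK, hα, hC, h⟩ := asm_c hQ hR
  refine ⟨K, α, MW θ * C * (12 ^ α + 1 + 4 ^ α), hK, hα, by positivity, ?_⟩
  intro n q D hq hD η k l r R₁ R₂ R₃ fc F Yc G₀ Mc C₀ hη hl hr hR1 hR2 hR3 hF h0 hk hfc0 hfc hfs hFm
    hMc hC₀ hYc hG₀ hG₀I hmom hFL hX hX'
  have hR12 : R₁ ≤ R₂ := by nlinarith
  have hFl := fltQ_flt hF
  have hl1 : FltQ D η (q l) (4 * r) false false := fltQ_mono hF (by omega)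
  have hE0 : 0 ≤ Ex (2 * Real.cos θ) D η G₀ := Ex_nonneg hQ0 fun S _ => hG₀ _
  have hmain := h D η (q l) 4 r R₁ R₂ R₃ hη hF hr (by norm_num) hR1 hR2 hR3
    (XG θ q D k (fun z => F z - fc z)) (XG θ q D k (fun z => F z - dlt (q l) θ z))
    (FL θ (q l) r R₁ (-1) (-fc)) (fun ω => MW θ * Yc ω) (fun ω => C₀ * G₀ ω) (MW θ * Mc) (by positivity)
    loc_FL (fun ω => FL_nonneg hθ0 hθ1 hfc0
      (fun z hz => sites_mono (hbox_mono (by omega)) (hfc z hz)) hfs) hFL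
    (fun ω => ?_) hX' (fun ω ω' h' => by simp only [hG₀I ω ω' h'])
    (fun ω hI => ?_) (fun ω hCr => ?_) (fun G hG0 hGI => ?_) ?_
  · -- the conclusion
    unfold zC
    refine hmain.trans ?_
    rw [Ex_mul_left]
    have hr0 : (0 : ℝ) < r := by exact_mod_cast (by omega : 0 < r)
    have hb1 : (0 : ℝ) < R₁ := by exact_mod_cast (by omega : 0 < R₁)
    have hb2 : (0 : ℝ) < R₂ := by exact_mod_cast (by omega : 0 < R₂)
    have hb3 : (0 : ℝ) < R₃ := by exact_mod_cast (by omega : 0 < R₃)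
    have e1 : (((4 * r : ℤ) : ℝ) / ((R₁ - 2 : ℤ) : ℝ)) ^ α ≤ 12 ^ α * ((r : ℝ) / R₁) ^ α := by
      rw [← Real.mul_rpow (by norm_num) (by positivity)]
      have hb : (0 : ℝ) < ((R₁ - 2 : ℤ) : ℝ) := by exact_mod_cast (by omega : 0 < R₁ - 2)
      refine Real.rpow_le_rpow (div_nonneg (by push_cast; positivity) hb.le) ?_ hα.le
      rw [mul_div_assoc', div_le_div_iff₀ hb hb1]
      have h5 : (R₁ : ℝ) ≤ 3 * ((R₁ - 2 : ℤ) : ℝ) := by
        exact_mod_cast (by omega : R₁ ≤ 3 * (R₁ - 2))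
      have h6 := mul_le_mul_of_nonneg_left h5 (by positivity : (0 : ℝ) ≤ 4 * r)
      push_cast at h6 ⊢
      linarith
    have e3 : (((R₂ + 2 : ℤ) : ℝ) / ((R₃ - 2 : ℤ) : ℝ)) ^ α ≤ 4 ^ α * ((R₂ : ℝ) / R₃) ^ α := by
      rw [← Real.mul_rpow (by norm_num) (by positivity)]
      have hb : (0 : ℝ) < ((R₃ - 2 : ℤ) : ℝ) := by exact_mod_cast (by omega : 0 < R₃ - 2)
      refine Real.rpow_le_rpow (div_nonneg (by push_cast; linarith) hb.le) ?_ hα.le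
      rw [mul_div_assoc', div_le_div_iff₀ hb hb3]
      have h5 : (R₃ : ℝ) ≤ 2 * ((R₃ - 2 : ℤ) : ℝ) := by
        exact_mod_cast (by omega : R₃ ≤ 2 * (R₃ - 2))
      have h7 : ((R₂ + 2 : ℤ) : ℝ) ≤ 2 * R₂ := by
        exact_mod_cast (by omega : R₂ + 2 ≤ 2 * R₂)
      have h6 := mul_le_mul h7 h5 hb3.le (by positivity)
      push_cast at h6 ⊢
      linarith
    set x1 : ℝ := ((r : ℝ) / R₁) ^ α
    set x2 : ℝ := ((R₁ : ℝ) / R₂) ^ α
    set x3 : ℝ := ((R₂ : ℝ) / R₃) ^ α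
    have hx1 : 0 ≤ x1 := Real.rpow_nonneg (by positivity) _
    have hx2 : 0 ≤ x2 := Real.rpow_nonneg (by positivity) _
    have hx3 : 0 ≤ x3 := Real.rpow_nonneg (by positivity) _
    have p12 : (0 : ℝ) < 12 ^ α := by positivity
    have p4 : (0 : ℝ) < 4 ^ α := by positivity
    have hW : 0 ≤ C * (MW θ * Mc) * (C₀ * Ex (2 * Real.cos θ) D η G₀) := by positivity
    have t1 := mul_le_mul_of_nonneg_left e1 hW
    have t3 := mul_le_mul_of_nonneg_left e3 hW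
    have t2 : C * (MW θ * Mc) * (C₀ * Ex (2 * Real.cos θ) D η G₀) *
        (12 ^ α * x1 + x2 + 4 ^ α * x3) ≤ C * (MW θ * Mc) * (C₀ * Ex (2 * Real.cos θ) D η G₀) *
        ((12 ^ α + 1 + 4 ^ α) * (x1 + x2 + x3)) := by
      refine mul_le_mul_of_nonneg_left ?_ hW
      nlinarith [mul_nonneg p12.le hx2, mul_nonneg p12.le hx3, mul_nonneg p4.le hx1,
        mul_nonneg p4.le hx2]
    linarith
  · -- the majorant
    refine (hX ω).trans ?_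
    have h2 := two_le_MW hθ0 hθ1
    have := mul_nonneg hC₀ (mul_nonneg (hG₀ ω) (hYc ω))
    nlinarith
  · -- the factorisation
    have hFl1 : Flt D (q l) R₁ := hFl.mono (by omega)
    have h01 : q 0 ∉ sites (hbox (q l) R₁) := fun h' => h0 (sites_mono (hbox_mono (by omega)) h')
    refine factC hq hD hx hc hFl1 hr (by omega) hl h01 (by omega) hfc hfs hI fun A hA hV => ?_
    obtain ⟨hE, hInn⟩ := inn_of_iso hq hD hFl1 (by omega) hl h01 (by omega) hI hA hV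
    exact hFm ω A hA (innP_mono (fun e he => ⟨hE e he, hInn e he⟩) (by omega))
  · exact outV_clo hq hD hx hc hFl (by omega) hl h0 hk hFm hCr
  · have h5 := hmom D η hl1 hη G hG0 hGI
    have e : Ex (2 * Real.cos θ) D η (fun ω => G ω * (MW θ * Yc ω)) =
        MW θ * Ex (2 * Real.cos θ) D η (fun ω => G ω * Yc ω) := by
      rw [← Ex_mul_left]
      exact Ex_congr fun S _ => by ring
    rw [e, mul_assoc]
    exact mul_le_mul_of_nonneg_left h5 hM.le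
  · have h5 := hmom (hbox (q l) R₂) eta0 (fltQ_box (q l) (by omega)) f_good.2.1
      (fun _ => 1) (fun _ => zero_le_one) (fun _ _ _ => rfl)
    rw [Ex_const hQ0, mul_one] at h5
    have h6 : Ex (2 * Real.cos θ) (hbox (q l) R₂) eta0 (FL θ (q l) r R₁ (-1) (-fc)) ≤
        Ex (2 * Real.cos θ) (hbox (q l) R₂) eta0 (fun ω => MW θ * (1 * Yc ω)) :=
      Ex_mono hQ0 fun S _ => by rw [one_mul]; exact hFL _
    rw [Ex_mul_left] at h6
    exact h6.trans (mul_le_mul_of_nonneg_left h5 hM.le)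

/-- The bound of the one-point function. -/
theorem zC_le (hθ0 : 0 < θ) (hθ1 : Ang θ) {Yc : Cfg → ℝ} {Mc : ℝ}
    (hR : 4 * r < R₂)
    (hmom : ∀ (D' : Finset (ℤ × ℤ)) (η' : Cfg), FltQ D' η' b (4 * r) false false → Good η' →
        ∀ G : Cfg → ℝ, (∀ ω, 0 ≤ G ω) → Ind (hbox b (4 * r)) G →
          Ex (2 * Real.cos θ) D' η' (fun ω => G ω * Yc ω) ≤
            Mc * Ex (2 * Real.cos θ) D' η' G)
    (hFL : ∀ ω, FL θ b r R₁ (-1) (-fc) ω ≤ MW θ * Yc ω) : zC θ b r R₁ R₂ fc ≤ MW θ * Mc := by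
  have hM : 0 < MW θ := by linarith [two_le_MW hθ0 hθ1]
  have hθ1_lt := hθ1.lt
  have hQ0 : 0 < 2 * Real.cos θ := hθ1.kit.pos
  have h5 := hmom (hbox b R₂) eta0 (fltQ_box b (by omega)) f_good.2.1
    (fun _ => 1) (fun _ => zero_le_one) (fun _ _ _ => rfl)
  rw [Ex_const hQ0, mul_one] at h5
  have h6 : Ex (2 * Real.cos θ) (hbox b R₂) eta0 (FL θ b r R₁ (-1) (-fc)) ≤
      Ex (2 * Real.cos θ) (hbox b R₂) eta0 (fun ω => MW θ * (1 * Yc ω)) :=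
    Ex_mono hQ0 fun S _ => by rw [one_mul]; exact hFL _
  rw [Ex_mul_left] at h6
  unfold zC
  exact h6.trans (mul_le_mul_of_nonneg_left h5 hM.le)

/-- **Comparison of the one-point functions** of different scales. -/
theorem zC_comp (hθ0 : 0 < θ) (hθ1 : Ang θ) (hR : RSW (2 * Real.cos θ)) :
    ∃ (K : ℤ) (α C : ℝ), 1 ≤ K ∧ 0 < α ∧ 0 < C ∧
    ∀ (n : ℕ) (q : ZMod n → ℤ × ℤ) (D : Finset (ℤ × ℤ)), IsPolygon q → Encloses q D →
    ∀ (k l : ℕ) (r R₁ R₂ R₁' R₂' : ℤ) (fc : ℤ × ℤ → ℝ) (Yc : Cfg → ℝ) (Mc : ℝ),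
      l < n → 1 ≤ r → 4 * r + 2 ≤ R₁ → K * R₁ ≤ R₂ → R₁ ≤ R₁' → R₂ ≤ R₂' → R₁' < R₂' →
      Flt D (q l) R₁' → q 0 ∉ sites (hbox (q l) R₁') → (l : ℤ) + R₁' ≤ k →
      (∀ z, 0 ≤ fc z) → (∀ z, fc z ≠ 0 → z ∈ sites (hbox (q l) r)) → ∑ᶠ z, fc z = θ →
      0 ≤ Mc → (∀ ω, 0 ≤ Yc ω) →
      (∀ (D' : Finset (ℤ × ℤ)) (η' : Cfg), FltQ D' η' (q l) (4 * r) false false → Good η' →
        ∀ G : Cfg → ℝ, (∀ ω, 0 ≤ G ω) → Ind (hbox (q l) (4 * r)) G →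
          Ex (2 * Real.cos θ) D' η' (fun ω => G ω * Yc ω) ≤
            Mc * Ex (2 * Real.cos θ) D' η' G) →
      (∀ ω, FL θ (q l) r R₁ (-1) (-fc) ω ≤ MW θ * Yc ω) →
      (∀ ω, FL θ (q l) r R₁' (-1) (-fc) ω ≤ MW θ * Yc ω) →
      |zC θ (q l) r R₁ R₂ fc - zC θ (q l) r R₁' R₂' fc| ≤
        C * (((r : ℝ) / R₁) ^ α + ((R₁ : ℝ) / R₂) ^ α) * Mc := by
  have hθ1_lt := hθ1.lt
  have hM : 0 < MW θ := by linarith [two_le_MW hθ0 hθ1]
  have hQ : Kit (2 * Real.cos θ) := hθ1.kit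
  have hQ0 : 0 < 2 * Real.cos θ := hθ1.kit.pos
  obtain ⟨α, C, hα, hC, harm⟩ := arm_flat hQ hR
  obtain ⟨K, β, C', hK, hβ, hC', hmix⟩ := mix_flat hQ hR
  refine ⟨K, min α β, MW θ * C * 12 ^ (min α β) + MW θ * C', hK, lt_min hα hβ, by positivity, ?_⟩
  intro n q D hq hD k l r R₁ R₂ R₁' R₂' fc Yc Mc hl hr hR1 hR2 h11 h22 h12' hF h0 hk hfc0 hfc hfs
    hMc hYc hmom hFL hFL'
  have hR12 : R₁ ≤ R₂ := by nlinarith
  -- the change of the domain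
  have e1 := (hmix (q l) R₁ R₂ (by omega) hR2 (FL θ (q l) r R₁ (-1) (-fc)) loc_FL).2 R₂' h22
  have hnn : ∀ ω, 0 ≤ FL θ (q l) r R₁ (-1) (-fc) ω := fun ω => FL_nonneg hθ0 hθ1 hfc0
    (fun z hz => sites_mono (hbox_mono (by omega)) (hfc z hz)) hfs
  have e2 : Ex (2 * Real.cos θ) (hbox (q l) R₂) eta0
      (fun ω => |FL θ (q l) r R₁ (-1) (-fc) ω|) = zC θ (q l) r R₁ R₂ fc :=
    Ex_congr fun S _ => abs_of_nonneg (hnn _)
  rw [e2] at e1
  have e3 : zC θ (q l) r R₁ R₂ fc ≤ MW θ * Mc := zC_le hθ0 hθ1 (by omega) hmom hFL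
  -- the change of the functional
  set A : Cfg → ℝ := {ω | HArm (q l) (4 * r) (R₁ - 2) ω}.indicator 1 with hA
  have hA0 : ∀ ω, 0 ≤ A ω := fun ω => Set.indicator_nonneg (fun _ _ => zero_le_one) _
  have e4 : |Ex (2 * Real.cos θ) (hbox (q l) R₂') eta0 (FL θ (q l) r R₁ (-1) (-fc)) -
      zC θ (q l) r R₁' R₂' fc| ≤
      MW θ * (Mc * (C * (((4 * r : ℤ) : ℝ) / ((R₁ - 2 : ℤ) : ℝ)) ^ α)) := by
    unfold zC
    rw [← Ex_sub]
    refine (abs_Ex_le hQ0 _).trans ?_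
    have hpt : ∀ ω, |FL θ (q l) r R₁ (-1) (-fc) ω - FL θ (q l) r R₁' (-1) (-fc) ω| ≤
        MW θ * (A ω * Yc ω) := by
      intro ω
      by_cases hI : Iso (q l) r R₁ ω
      · have hf : ∀ z, (-fc) z ≠ 0 → z ∈ sites (hbox (q l) r) := fun z hz =>
          hfc z (by simpa using hz)
        rw [FL_two hq hD hF hr (by omega) h11 hl h0 hk hf hI, sub_self, abs_zero]
        have := mul_nonneg (hA0 ω) (hYc ω)
        positivity
      · have h1 : A ω = 1 := by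
          have : ω ∈ {ω | HArm (q l) (4 * r) (R₁ - 2) ω} :=
            harm_of_not_iso (by omega) (by omega) (by omega) (by omega) hI
          rw [hA, Set.indicator_of_mem this]
          rfl
        have h2 : FL θ (q l) r R₁ (-1) (-fc) ω = 0 := by
          unfold FL
          rw [if_neg hI]
        rw [h1, h2, zero_sub, abs_neg, one_mul, abs_of_nonneg]
        · exact hFL' ω
        · exact FL_nonneg hθ0 hθ1 hfc0
            (fun z hz => sites_mono (hbox_mono (by omega)) (hfc z hz)) hfs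
    refine (Ex_mono (G := fun ω => MW θ * (A ω * Yc ω)) hQ0 fun S _ => hpt _).trans ?_
    rw [Ex_mul_left]
    refine mul_le_mul_of_nonneg_left ?_ hM.le
    refine (hmom (hbox (q l) R₂') eta0 (fltQ_box (q l) (by omega)) f_good.2.1 A hA0
      (ind_harm _ _ _)).trans ?_
    refine mul_le_mul_of_nonneg_left ?_ hMc
    have h3 := harm (hbox (q l) R₂') eta0 (q l) (4 * r) (R₁ - 2) (fun _ => 1) (by omega) (by omega)
      (fltQ_box (q l) (by omega)) f_good.2.1 (fun _ => zero_le_one) (fun _ _ _ => rfl)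
    rw [Ex_const hQ0, mul_one] at h3
    simp only [one_mul] at h3
    exact h3
  -- the powers
  have hr0 : (0 : ℝ) < r := by exact_mod_cast (by omega : 0 < r)
  have hb1 : (0 : ℝ) < R₁ := by exact_mod_cast (by omega : 0 < R₁)
  have hb2 : (0 : ℝ) < R₂ := by exact_mod_cast (by omega : 0 < R₂)
  have hb : (0 : ℝ) < ((R₁ - 2 : ℤ) : ℝ) := by exact_mod_cast (by omega : 0 < R₁ - 2)
  have q1 : (((4 * r : ℤ) : ℝ) / ((R₁ - 2 : ℤ) : ℝ)) ^ α ≤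
      12 ^ (min α β) * ((r : ℝ) / R₁) ^ (min α β) := by
    rw [← Real.mul_rpow (by norm_num) (by positivity)]
    have hx0 : (0 : ℝ) < ((4 * r : ℤ) : ℝ) / ((R₁ - 2 : ℤ) : ℝ) :=
      div_pos (by push_cast; positivity) hb
    have hx1 : ((4 * r : ℤ) : ℝ) / ((R₁ - 2 : ℤ) : ℝ) ≤ 1 :=
      div_le_one_of_le₀ (by exact_mod_cast (by omega : 4 * r ≤ R₁ - 2)) hb.le
    refine (Real.rpow_le_rpow_of_exponent_ge hx0 hx1 (min_le_left α β)).trans ?_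
    refine Real.rpow_le_rpow hx0.le ?_ (lt_min hα hβ).le
    rw [mul_div_assoc', div_le_div_iff₀ hb hb1]
    have h5 : (R₁ : ℝ) ≤ 3 * ((R₁ - 2 : ℤ) : ℝ) := by
      exact_mod_cast (by omega : R₁ ≤ 3 * (R₁ - 2))
    have h6 := mul_le_mul_of_nonneg_left h5 (by positivity : (0 : ℝ) ≤ 4 * r)
    push_cast at h6 ⊢
    linarith
  have q2 : ((R₁ : ℝ) / R₂) ^ β ≤ ((R₁ : ℝ) / R₂) ^ (min α β) :=
    Real.rpow_le_rpow_of_exponent_ge (by positivity)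
      (div_le_one_of_le₀ (by exact_mod_cast hR12) hb2.le) (min_le_right _ _)
  set x1 : ℝ := ((r : ℝ) / R₁) ^ (min α β)
  set x2 : ℝ := ((R₁ : ℝ) / R₂) ^ (min α β)
  have hx1 : 0 ≤ x1 := Real.rpow_nonneg (by positivity) _
  have hx2 : 0 ≤ x2 := Real.rpow_nonneg (by positivity) _
  have hz0 : 0 ≤ zC θ (q l) r R₁ R₂ fc := Ex_nonneg hQ0 fun S _ => hnn _
  have t1 : C' * ((R₁ : ℝ) / R₂) ^ β * zC θ (q l) r R₁ R₂ fc ≤ C' * x2 * (MW θ * Mc) :=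
    mul_le_mul (mul_le_mul_of_nonneg_left q2 hC'.le) e3 hz0 (mul_nonneg hC'.le hx2)
  have t2 : MW θ * (Mc * (C * (((4 * r : ℤ) : ℝ) / ((R₁ - 2 : ℤ) : ℝ)) ^ α)) ≤
      MW θ * (Mc * (C * (12 ^ (min α β) * x1))) := by
    refine mul_le_mul_of_nonneg_left ?_ hM.le
    exact mul_le_mul_of_nonneg_left (mul_le_mul_of_nonneg_left q1 hC.le) hMc
  have e5 : zC θ (q l) r R₁ R₂ fc - zC θ (q l) r R₁' R₂' fc =
      (Ex (2 * Real.cos θ) (hbox (q l) R₂) eta0 (FL θ (q l) r R₁ (-1) (-fc)) -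
        Ex (2 * Real.cos θ) (hbox (q l) R₂') eta0 (FL θ (q l) r R₁ (-1) (-fc))) +
      (Ex (2 * Real.cos θ) (hbox (q l) R₂') eta0 (FL θ (q l) r R₁ (-1) (-fc)) -
        zC θ (q l) r R₁' R₂' fc) := by
    unfold zC
    ring
  rw [e5]
  refine (abs_add_le _ _).trans ?_
  have p12 : (0 : ℝ) < 12 ^ (min α β) := by positivity
  have u1 : 0 ≤ MW θ * C' * x1 * Mc := by positivity
  have u2 : 0 ≤ MW θ * C * 12 ^ (min α β) * x2 * Mc := by positivity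
  linarith

end Vale.Agent.P167.N.QB
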