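import Vale.Agent.P167.N.Kit
import Vale.Agent.P167.N.H562.Q.MQ1
import Vale.Agent.P167.N.QB.Maj
import Vale.Agent.P167.N.QB.Maj3
import Vale.Agent.P167.N.QB.Mom
import Vale.Agent.P167.N.QB.Pr1
import Vale.Agent.P167.N.QB.Pr6
import Vale.Agent.P167.QB.Low

/-! generated from Vale.Agent.P167.QB.Low (q < 1 port) -/

set_option autoImplicit false

namespace Vale.Agent.P167.N.QB

open Vale.Agent.P167.QB

open Finset Filter Topology MeasureTheory Vale.Agent.P167.BR Vale.Agent.P167.FK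

open Vale.Agent.P167.FKA (Loc Ind ArmDec)

open Vale.Agent.P167.H519 (IsLim)

open Vale.Agent.P167.H562.SML

open Vale.Agent.P167.H562.MAJ (bigs Sm core Sc mem_core)

open Vale.Agent.P167.H562.QM

variable {Q : ℝ} {P : Measure Cfg} {D : Finset (ℤ × ℤ)} {η ω : Cfg} {b : ℤ × ℤ} {r R : ℤ} {K θ : ℝ}
  {f g : ℤ × ℤ → ℝ} {σ : ℤ}

/-- **The majorant of the local functional.** -/
theorem FL_le (hθ0 : 0 < θ) (hθ1 : Ang θ) (hK : KW θ ≤ K) (h : Sc K r) (hrR : 2 * r ≤ R)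
    (hσ : σ = 1 ∨ σ = -1) (hg : ∀ z, |g z| ≤ K / (r : ℝ) ^ 2)
    (hs : ∀ z, g z ≠ 0 → z ∈ sites (core K b r)) {N : ℕ}
    (hN : ∀ D : Finset (ℤ × ℤ), (bigs D (hbox b r) (dq K r) ω).card ≤ N) :
    |FL θ b r R σ g ω| ≤ MW θ * (MW θ ^ N * Real.exp (-(Real.tan θ * Sm g (dq K r) ω))) := by
  have hθ1_lt := hθ1.lt
  have h8 := h.r8
  have hR : 1 ≤ R := by omega
  obtain ⟨n, q, l, hq, hD, hl, hb, h0⟩ := hpoly b (R := 2 * R) (by omega)
  have h0' : q 0 ∉ sites (hbox (q l) R) := by rw [hb, h0]; exact top_notin hR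
  have := FL_le_poly hq hD (θ := θ) (ω := ω) (l := l) (R := R) (K := K) (r := r) (σ := σ) (g := g)
    (N := N) (by rw [hb]; exact Vale.Agent.P167.QB.flt_hbox hR) hl h0' hθ0 hθ1 hK h hrR hσ hg (by rw [hb]; exact hs)
    (by rw [hb]; exact hN _)
  rwa [hb] at this

/-- **The lower bound of the local functional.** -/
theorem FL_lower (hθ0 : 0 < θ) (hθ1 : Ang θ) (h : Sc K r) (hrR : 2 * r ≤ R)
    (hf0 : ∀ z, 0 ≤ f z) (hf : ∀ z, f z ≤ K / (r : ℝ) ^ 2)
    (hs : ∀ z, f z ≠ 0 → z ∈ sites (core K b r)) (ht : ∑ᶠ z, f z = θ) {N : ℕ}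
    (hN : ∀ D : Finset (ℤ × ℤ), (bigs D (hbox b r) (dq K r) ω).card ≤ N) (hI : Iso b r R ω)
    {A : Finset (ℤ × ℤ)}
    (hA : ∀ s, f s ≠ 0 → ∀ v : ℤ × ℤ, (nm (v - s) : ℝ) < dq K r → v ∈ A) :
    Real.exp (Real.tan θ * Sm f (dq K r) ω - kq θ * Sq A f (dq K r) ω) ≤
      MW θ * MW θ ^ N * FL θ b r R (-1) (-f) ω := by
  have hθ1_lt := hθ1.lt
  have h8 := h.r8
  have hR : 1 ≤ R := by omega
  obtain ⟨n, q, l, hq, hD, hl, hb, h0⟩ := hpoly b (R := 2 * R) (by omega)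
  have h0' : q 0 ∉ sites (hbox (q l) R) := by rw [hb, h0]; exact top_notin hR
  have := FL_lower_poly hq hD (θ := θ) (ω := ω) (l := l) (R := R) (K := K) (r := r) (f := f)
    (N := N) (by rw [hb]; exact Vale.Agent.P167.QB.flt_hbox hR) hl h0' hθ0 hθ1 h hrR hf0 hf (by rw [hb]; exact hs) ht
    (by rw [hb]; exact hN _) (by rw [hb]; exact hI) hA
  rwa [hb] at this

theorem two_cos (hθ0 : 0 < θ) (hθ1 : Ang θ) : Kit (2 * Real.cos θ) := hθ1.kit

/-- **Lower bound of the expectation of the local functional.** -/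
theorem FL_low (hθ0 : 0 < θ) (hθ1 : Ang θ) (hR0 : RSW (2 * Real.cos θ))
    (hP : IsLim (2 * Real.cos θ) P) (hK : 1 ≤ K) : ∃ (c r0 : ℝ) (Λ : ℤ), 0 < c ∧ 1 ≤ r0 ∧ 2 ≤ Λ ∧
    ∀ r : ℤ, r0 ≤ r → ∀ (b : ℤ × ℤ) (R : ℤ), Λ * r ≤ R → ∀ (D : Finset (ℤ × ℤ)) (η : Cfg),
      Good η → FltQ D η b R false false → ∀ f : ℤ × ℤ → ℝ, (∀ z, 0 ≤ f z) →
      (∀ z, f z ≤ K / (r : ℝ) ^ 2) → (∀ z, f z ≠ 0 → z ∈ sites (core K b r)) → ∑ᶠ z, f z = θ →
      ∀ G : Cfg → ℝ, (∀ ω, 0 ≤ G ω) → Ind (hbox b R) G →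
      c * Nf θ K P r * Ex (2 * Real.cos θ) D η G ≤
        Ex (2 * Real.cos θ) D η (fun ω => G ω * FL θ b r R (-1) (-f) ω) := by
  have hθ1_lt := hθ1.lt
  classical
  have hQ := two_cos hθ0 hθ1
  have hQ0 : 0 < 2 * Real.cos θ := hθ1.kit.pos
  have t0 : 0 ≤ Real.tan θ := Vale.Agent.P167.N.H562.QM.tan_nn hθ0 hθ1
  have hM2 := two_le_MW hθ0 hθ1
  have hM0 : 0 < MW θ := by linarith
  have hk0 := kq_pos hθ1
  obtain ⟨C1, r1, hC1, hr1, h1⟩ := yb_mom hQ hR0 hP hK (MW θ) 2 (Real.tan θ) (by linarith)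
    (by norm_num)
  obtain ⟨C2, hC2, h2⟩ := sq_mom hQ hR0 hP hK (2 * kq θ) (by positivity)
  obtain ⟨α, C3, hα, hC3, h3⟩ := arm_flat hQ hR0
  -- the ratio of the scales
  obtain ⟨Λ, hΛ2, hΛ⟩ : ∃ Λ : ℤ, 2 ≤ Λ ∧ ∀ r R : ℤ, 1 ≤ r → Λ * r ≤ R →
      2 * r ≤ R - 2 ∧ C3 * (((2 * r : ℤ) : ℝ) / ((R - 2 : ℤ) : ℝ)) ^ α ≤ 1 / 2 := by
    obtain ⟨x, hx0, hx⟩ : ∃ x : ℝ, 0 < x ∧ C3 * x ^ α ≤ 1 / 2 := by
      refine ⟨(1 / (2 * C3)) ^ (1 / α), by positivity, ?_⟩
      rw [← Real.rpow_mul (by positivity), one_div_mul_cancel hα.ne', Real.rpow_one]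
      field_simp
      norm_num
    refine ⟨max 4 (⌈2 / x⌉ + 2), by omega, fun r R hr hR => ?_⟩
    have k1 : (4 : ℤ) * r ≤ R := le_trans (mul_le_mul_of_nonneg_right (le_max_left _ _) (by omega)) hR
    have k2 : (⌈2 / x⌉ + 2) * r ≤ R :=
      le_trans (mul_le_mul_of_nonneg_right (le_max_right _ _) (by omega)) hR
    refine ⟨by omega, le_trans (mul_le_mul_of_nonneg_left (Real.rpow_le_rpow ?_ ?_ hα.le) hC3.le) hx⟩
    · have : (0 : ℝ) ≤ ((2 * r : ℤ) : ℝ) := by exact_mod_cast (by omega : (0 : ℤ) ≤ 2 * r)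
      have : (0 : ℝ) ≤ ((R - 2 : ℤ) : ℝ) := by exact_mod_cast (by omega : (0 : ℤ) ≤ R - 2)
      positivity
    · have k3 : (⌈2 / x⌉ : ℤ) * r ≤ R - 2 := by nlinarith
      have k4 : (0 : ℝ) < r := by exact_mod_cast (by omega : (0 : ℤ) < r)
      have k5 : (0 : ℝ) < ((R - 2 : ℤ) : ℝ) := by exact_mod_cast (by omega : (0 : ℤ) < R - 2)
      rw [div_le_iff₀ k5]
      have k6 : (2 / x) * r ≤ ((R - 2 : ℤ) : ℝ) := by
        refine le_trans (mul_le_mul_of_nonneg_right (Int.le_ceil _) k4.le) ?_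
        exact_mod_cast k3
      have k7 : x * ((2 / x) * r) = 2 * r := by field_simp
      push_cast at k6 ⊢
      nlinarith
  refine ⟨1 / (4 * (MW θ * (Real.sqrt C1 * Real.sqrt C2))), r1, Λ, by positivity, hr1, hΛ2,
    fun r hr b R hR D η hη hF f hf0 hf hfs ht G hG0 hG => ?_⟩
  obtain ⟨hSc, h1⟩ := h1 r hr
  have h8 := hSc.r8
  obtain ⟨hR2, harm⟩ := hΛ r R (by omega) hR
  obtain ⟨N, -, hN2, hN3⟩ := h1 b
  have hfa : ∀ z, |f z| ≤ K / (r : ℝ) ^ 2 := fun z => by rw [abs_of_nonneg (hf0 z)]; exact hf z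
  obtain ⟨A, hA, hsq⟩ := h2 r hSc b f hfa hfs
  have hF2 : FltQ D η b (2 * r) false false :=
    ⟨fun v hv => hF.dom v (by omega), fun v hv => hF.out v (by omega)⟩
  have hG2 : Ind (hbox b (2 * r)) G := fun ω ω' hw => hG ω ω' fun v hv =>
    hw v fun hv' => hv (hbox_mono (by omega) hv')
  set g : ℝ := Ex (2 * Real.cos θ) D η G with hg
  have hg0 : 0 ≤ g := FKA.Ex_nonneg hQ0 fun S _ => hG0 _
  set E : ℝ := Real.exp (-(Real.tan θ * θ * NbP P (dq K r))) with hE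
  have hE0 : 0 < E := Real.exp_pos _
  have hEN : E * Nf θ K P r = 1 := by
    rw [hE, Nf, ← Real.exp_add, neg_add_cancel, Real.exp_zero]
  set B : ℝ := MW θ * (Real.sqrt C1 * E * Real.sqrt C2) with hB
  have hB0 : 0 < B := by positivity
  -- the moment of the inverse
  have hinv : Ex (2 * Real.cos θ) D η (fun ω => G ω * (MW θ * (YQ (MW θ) (Real.tan θ) N f (dq K r) ω *
      Real.exp (kq θ * Sq A f (dq K r) ω)))) ≤ B * g := by
    have e1 : Ex (2 * Real.cos θ) D η (fun ω => G ω * YQ (MW θ) (Real.tan θ) N f (dq K r) ω ^ 2) ≤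
        (Real.sqrt C1 * E) ^ 2 * g := by
      have := hN3 D η false false hη hF2 f hfa hfs G hG0 hG2 (Real.tan θ) 2 t0 le_rfl
        (by norm_num) le_rfl
      simp only [Real.rpow_two] at this
      have e5 : Real.exp (-(2 * Real.tan θ * θ * NbP P (dq K r))) = E ^ 2 := by
        rw [hE, ← Real.exp_nat_mul]
        congr 1
        push_cast
        ring
      rw [ht, e5] at this
      rw [mul_pow, Real.sq_sqrt hC1.le]
      exact this
    have e2 : Ex (2 * Real.cos θ) D η (fun ω => G ω * Real.exp (kq θ * Sq A f (dq K r) ω) ^ 2) ≤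
        (Real.sqrt C2) ^ 2 * g := by
      rw [Real.sq_sqrt hC2.le]
      have := hsq D η false false hη hF2 G hG0 hG2
      refine le_trans (le_of_eq ?_) this
      refine FKA.Ex_congr fun S _ => ?_
      rw [← Real.exp_nat_mul]
      push_cast
      ring_nf
    have e3 := ex_cs hQ0 hG0 (by positivity) (Real.sqrt_nonneg _) hg0 e1 e2
    have e4 : Ex (2 * Real.cos θ) D η (fun ω => G ω * (MW θ * (YQ (MW θ) (Real.tan θ) N f (dq K r) ω *
      Real.exp (kq θ * Sq A f (dq K r) ω)))) = MW θ * Ex (2 * Real.cos θ) D η (fun ω => G ω *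
        (YQ (MW θ) (Real.tan θ) N f (dq K r) ω * Real.exp (kq θ * Sq A f (dq K r) ω))) := by
      rw [← FKA.Ex_mul_left]
      exact FKA.Ex_congr fun S _ => by ring
    rw [e4, hB]
    have e6 := mul_le_mul_of_nonneg_left e3 hM0.le
    refine e6.trans (le_of_eq ?_)
    ring
  -- the arm event
  have harm2 : Ex (2 * Real.cos θ) D η
      (fun ω => G ω * {ω | HArm b (2 * r) (R - 2) ω}.indicator 1 ω) ≤ 1 / 2 * g := by
    refine (h3 D η b (2 * r) (R - 2) G (by omega) hR2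
      ⟨fun v hv => hF.dom v (by omega), fun v hv => hF.out v (by omega)⟩ hη hG0
      (fun ω ω' hw => hG ω ω' fun v hv => hw v fun hv' => hv
        (hbox_mono (by omega) (mem_sdiff.1 hv').1))).trans ?_
    exact mul_le_mul_of_nonneg_right harm hg0
  -- pointwise
  have hpt : ∀ ω, 2 * (G ω - G ω * {ω | HArm b (2 * r) (R - 2) ω}.indicator 1 ω) ≤
      (2 * B) * (G ω * FL θ b r R (-1) (-f) ω) + (2 * B)⁻¹ *
        (G ω * (MW θ * (YQ (MW θ) (Real.tan θ) N f (dq K r) ω * Real.exp (kq θ * Sq A f (dq K r) ω)))) := by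
    intro ω
    have hFL : 0 ≤ FL θ b r R (-1) (-f) ω := FL_nonneg hθ0 hθ1 hf0
      (fun z hz => sites_mono (hSc.core_sub.trans (hbox_mono (by omega))) (hfs z hz)) ht
    have hY : 0 < YQ (MW θ) (Real.tan θ) N f (dq K r) ω := YQ_pos hM0 _ _ _ _ _
    have hgω := hG0 ω
    by_cases hh : HArm b (2 * r) (R - 2) ω
    · rw [Set.indicator_of_mem (show ω ∈ {ω | HArm b (2 * r) (R - 2) ω} from hh), Pi.one_apply,
        mul_one, sub_self, mul_zero]
      positivity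
    · rw [Set.indicator_of_notMem (show ω ∉ {ω | HArm b (2 * r) (R - 2) ω} from hh), mul_zero,
        sub_zero]
      have hI : Iso b r R ω := by
        by_contra h'
        exact hh (harm_of_not_iso (by omega) (by omega) (by omega) (by omega) h')
      have h4 := FL_lower (θ := θ) hθ0 hθ1 hSc (by omega) hf0 hf hfs ht (hN2 ω) hI hA
      set x := FL θ b r R (-1) (-f) ω with hx
      set y := MW θ * (YQ (MW θ) (Real.tan θ) N f (dq K r) ω * Real.exp (kq θ * Sq A f (dq K r) ω)) with hy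
      have hy0 : 0 ≤ y := by positivity
      have hxy : 1 ≤ x * y := by
        have e : Real.exp (Real.tan θ * Sm f (dq K r) ω - kq θ * Sq A f (dq K r) ω) *
            (Real.exp (-(Real.tan θ * Sm f (dq K r) ω)) * Real.exp (kq θ * Sq A f (dq K r) ω)) = 1 := by
          rw [← Real.exp_add, ← Real.exp_add]
          ring_nf
          exact Real.exp_zero
        have h5 := mul_le_mul_of_nonneg_right h4 (show 0 ≤
          (Real.exp (-(Real.tan θ * Sm f (dq K r) ω)) * Real.exp (kq θ * Sq A f (dq K r) ω)) by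
            positivity)
        rw [e] at h5
        refine h5.trans (le_of_eq ?_)
        rw [hy, YQ]
        ring
      have h6 := two_le_of_mul (a := 2 * B * x) (b := (2 * B)⁻¹ * y) (by positivity) (by positivity)
        (by
          have : 2 * B * x * ((2 * B)⁻¹ * y) = x * y := by field_simp
          rw [this]
          exact hxy)
      nlinarith
  have hex : Ex (2 * Real.cos θ) D η
      (fun ω => 2 * (G ω - G ω * {ω | HArm b (2 * r) (R - 2) ω}.indicator 1 ω)) ≤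
      Ex (2 * Real.cos θ) D η (fun ω => (2 * B) * (G ω * FL θ b r R (-1) (-f) ω) + (2 * B)⁻¹ *
        (G ω * (MW θ * (YQ (MW θ) (Real.tan θ) N f (dq K r) ω * Real.exp (kq θ * Sq A f (dq K r) ω))))) :=
    FKA.Ex_mono (D := D) (η := η) hQ0 fun S _ => hpt (cf D η S)
  rw [FKA.Ex_add, FKA.Ex_mul_left, FKA.Ex_mul_left, FKA.Ex_mul_left] at hex
  have hsub : Ex (2 * Real.cos θ) D η
      (fun ω => G ω - G ω * {ω | HArm b (2 * r) (R - 2) ω}.indicator 1 ω) =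
      g - Ex (2 * Real.cos θ) D η
        (fun ω => G ω * {ω | HArm b (2 * r) (R - 2) ω}.indicator 1 ω) := by
    rw [hg, eq_sub_iff_add_eq, ← FKA.Ex_add]
    exact FKA.Ex_congr fun S _ => by ring
  rw [hsub] at hex
  set X := Ex (2 * Real.cos θ) D η (fun ω => G ω * FL θ b r R (-1) (-f) ω) with hX
  have h7 : (2 * B)⁻¹ * Ex (2 * Real.cos θ) D η (fun ω => G ω * (MW θ *
      (YQ (MW θ) (Real.tan θ) N f (dq K r) ω * Real.exp (kq θ * Sq A f (dq K r) ω)))) ≤ 1 / 2 * g := by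
    refine (mul_le_mul_of_nonneg_left hinv (by positivity)).trans (le_of_eq ?_)
    field_simp
  have h8 : 1 / 2 * g ≤ 2 * B * X := by linarith
  have h9 : 1 / (4 * (MW θ * (Real.sqrt C1 * Real.sqrt C2))) * Nf θ K P r * g =
      (1 / 2 * g) / (2 * B) := by
    have h10 : Nf θ K P r = 1 / E := by rw [eq_div_iff hE0.ne', mul_comm]; exact hEN
    rw [h10, hB]
    field_simp
    ring
  rw [h9, div_le_iff₀ (by positivity)]
  linarith

end Vale.Agent.P167.N.QB
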