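import Vale.Agent.P167.N.Kit
import Vale.Agent.P167.N.H562.Q.MQ1
import Vale.Agent.P167.N.QB.Low
import Vale.Agent.P167.N.QB.Maj
import Vale.Agent.P167.N.QB.Mom
import Vale.Agent.P167.N.QB.Pr6
import Vale.Agent.P167.QB.Brc

/-! generated from Vale.Agent.P167.QB.Brc (q < 1 port) -/

set_option autoImplicit false

namespace Vale.Agent.P167.N.QB

open Vale.Agent.P167.QB

open Finset Filter Topology MeasureTheory Vale.Agent.P167.BR Vale.Agent.P167.FK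

open Vale.Agent.P167.E6 (IsPolygon Encloses)

open Vale.Agent.P167.FKA (Loc Ind ArmDec)

open Vale.Agent.P167.H519 (IsLim)

open Vale.Agent.P167.H562.SML

open Vale.Agent.P167.H562.MAJ (bigs Sm Sm_loc core Sc mem_core)

open Vale.Agent.P167.H562.QM

variable {Q : ℝ} {P : Measure Cfg} {D : Finset (ℤ × ℤ)} {η ω : Cfg} {b : ℤ × ℤ} {r R : ℤ} {K θ : ℝ}
  {f g : ℤ × ℤ → ℝ} {σ : ℤ}

/-- **The order of the local factor.** -/
theorem zC_bds (hθ0 : 0 < θ) (hθ1 : Ang θ) (hR0 : RSW (2 * Real.cos θ))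
    (hP : IsLim (2 * Real.cos θ) P) (hK : KW θ ≤ K) : ∃ (c C r0 : ℝ) (Λ : ℤ), 0 < c ∧ 1 ≤ r0 ∧ 2 ≤ Λ ∧
    ∀ r : ℤ, r0 ≤ r → ∀ (b : ℤ × ℤ) (R₁ R₂ : ℤ), Λ * r ≤ R₁ → R₁ + 1 ≤ R₂ →
      ∀ f : ℤ × ℤ → ℝ, Bq' θ K b r f →
      c * Nf θ K P r ≤ zC θ b r R₁ R₂ f ∧ zC θ b r R₁ R₂ f ≤ C * Nf θ K P r := by
  have hθ1_lt := hθ1.lt
  have hQ := two_cos hθ0 hθ1
  have hQ0 : 0 < 2 * Real.cos θ := hθ1.kit.pos
  have t0 : 0 ≤ Real.tan θ := Vale.Agent.P167.N.H562.QM.tan_nn hθ0 hθ1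
  have hK1 : 1 ≤ K := (KW_one hθ1).trans hK
  have hM2 := two_le_MW hθ0 hθ1
  obtain ⟨C1, r1, hC1, hr1, h1⟩ := yb_mom hQ hR0 hP hK1 (MW θ) 1 (Real.tan θ)
    (by linarith) zero_le_one
  obtain ⟨c, r2, Λ, hc, hr2, hΛ, h2⟩ := FL_low hθ0 hθ1 hR0 hP hK1
  refine ⟨c, MW θ * C1, max r1 r2, Λ, hc, hr1.trans (le_max_left _ _), hΛ,
    fun r hr b R₁ R₂ hR1 hR2 f hf => ?_⟩
  obtain ⟨hSc, h1⟩ := h1 r ((le_max_left _ _).trans hr)
  obtain ⟨N, -, hN2, hN3⟩ := h1 b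
  have hr8 := hSc.r8
  have hR1' : 2 * r ≤ R₁ := by nlinarith
  have hF : FltQ (hbox b R₂) eta0 b R₁ false false := by
    have := fltQ_hbox (b := b) (R := R₂ - 1) (by omega)
    rw [sub_add_cancel] at this
    exact fltQ_mn this (by omega)
  constructor
  · have h3 := h2 r ((le_max_right _ _).trans hr) b R₁ hR1 (hbox b R₂) eta0 f_good.2.1 hF f
      hf.nonneg hf.le hf.supp hf.sum (fun _ => 1) (fun _ => zero_le_one) (fun _ _ _ => rfl)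
    simp only [one_mul] at h3
    rw [FKA.Ex_const hQ0, mul_one] at h3
    exact h3
  · have hnf : ∀ z, |(-f) z| ≤ K / (r : ℝ) ^ 2 := fun z => by
      rw [Pi.neg_apply, abs_neg]; exact hf.abs_le z
    have h3 := hN3 (hbox b R₂) eta0 false false f_good.2.1 (fltQ_mn hF hR1') (-f) hnf hf.neg_supp
      (fun _ => 1) (fun _ => zero_le_one) (fun _ _ _ => rfl) (Real.tan θ) 1 t0 le_rfl zero_le_one
      le_rfl
    simp only [one_mul, Real.rpow_one] at h3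
    rw [FKA.Ex_const hQ0, hf.neg_sum, mul_one] at h3
    have h4 : Real.exp (-(Real.tan θ * -θ * NbP P (dq K r))) = Nf θ K P r := by
      unfold Nf
      congr 1
      ring
    rw [h4] at h3
    have h5 : zC θ b r R₁ R₂ f ≤ Ex (2 * Real.cos θ) (hbox b R₂) eta0
        (fun ω => MW θ * YQ (MW θ) (Real.tan θ) N (-f) (dq K r) ω) := by
      refine FKA.Ex_mono hQ0 fun S _ => ?_
      exact (le_abs_self _).trans (FL_le (θ := θ) (σ := -1) hθ0 hθ1 hK hSc hR1' (Or.inr rfl) hnf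
        hf.neg_supp (hN2 _))
    rw [FKA.Ex_mul_left] at h5
    have h6 := mul_le_mul_of_nonneg_left h3 (by linarith : (0 : ℝ) ≤ MW θ)
    linarith

end Vale.Agent.P167.N.QB
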