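import Vale.Agent.P167.N.Kit
import Vale.Agent.P167.N.QB.Brc
import Vale.Agent.P167.N.QB.Low
import Vale.Agent.P167.QB.Uns

/-! generated from Vale.Agent.P167.QB.Uns (q < 1 port) -/

set_option autoImplicit false

namespace Vale.Agent.P167.N.QB

open Vale.Agent.P167.QB

open Finset Filter Topology MeasureTheory Vale.Agent.P167.BR Vale.Agent.P167.FK

open Vale.Agent.P167.E6 (IsPolygon Encloses dir face)

open Vale.Agent.P167.FKA (Loc Ind ArmDec)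

open Vale.Agent.P167.H519 (IsLim)

open Vale.Agent.P167.H562.QM

variable {Q : ℝ} {P : Measure Cfg} {D : Finset (ℤ × ℤ)} {η ω : Cfg} {b : ℤ × ℤ} {r R : ℤ} {K θ : ℝ}
  {f g : ℤ × ℤ → ℝ} {σ : ℤ}

/-- **The order of the one-point function.** -/
theorem zS_bds (hθ0 : 0 < θ) (hθ1 : Ang θ) (hR0 : RSW (2 * Real.cos θ))
    (hP : IsLim (2 * Real.cos θ) P) (hK : KW θ ≤ K) : ∃ (c C r0 : ℝ), 0 < c ∧ 0 < C ∧ 1 ≤ r0 ∧
    ∀ r : ℤ, r0 ≤ r → ∀ (b : ℤ × ℤ), ∀ f : ℤ × ℤ → ℝ, Bq' θ K b r f →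
      c * Nf θ K P r ≤ zS θ b r f ∧ zS θ b r f ≤ C * Nf θ K P r := by
  have hθ1_lt := hθ1.lt
  obtain ⟨c, C, r0, Λ, hc, hr0, hΛ, h⟩ := zC_bds hθ0 hθ1 hR0 hP hK
  refine ⟨c, max C 1, max r0 (max Λ 2), hc, lt_of_lt_of_le one_pos (le_max_right _ _),
    hr0.trans (le_max_left _ _), fun r hr b f hf => ?_⟩
  have hr1 : (Λ : ℝ) ≤ r := (le_max_left _ _).trans ((le_max_right _ _).trans hr)
  have hr2 : (2 : ℝ) ≤ r := (le_max_right _ _).trans ((le_max_right _ _).trans hr)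
  have hr1' : Λ ≤ r := by exact_mod_cast hr1
  have hr2' : 2 ≤ r := by exact_mod_cast hr2
  have h1 := h r ((le_max_left _ _).trans hr) b (r ^ 2) (r ^ 3) (by nlinarith) (by nlinarith) f hf
  exact ⟨h1.1, h1.2.trans (mul_le_mul_of_nonneg_right (le_max_left _ _) (Nf_pos _ _ _ _).le)⟩

end Vale.Agent.P167.N.QB
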