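import Vale.Agent.P167.N.Kit
import Vale.Agent.P167.QB.Far

/-! generated from Vale.Agent.P167.QB.Far (q < 1 port) -/

set_option autoImplicit false

namespace Vale.Agent.P167.N.QB

open Vale.Agent.P167.QB

open Finset Relation Vale.Agent.P167.BR

open Vale.Agent.P167.E6 (IsPolygon Encloses dir face)

open Vale.Agent.P167.H718 (IsXY IsCl Cl isCl_strand side_const)

open Vale.Agent.P167.QX (lo hi exists_xy lo_xy hi_xy wB)

variable {D Z : Finset (ℤ × ℤ)} {ω : Cfg} {n : ℕ} {q : ZMod n → ℤ × ℤ} {A B : Finset Ed}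
  {x y w w' a b m : ℕ} {θ : ℝ} {k l : ℕ} {r R : ℤ}

section

variable (hq : IsPolygon q) (hD : Encloses q D)

include hq hD

open Classical in
/-- **The far strands.** -/
theorem far_prod (hx : 0 < Real.sin θ) (hc : Kit (2 * Real.cos θ)) {M : ℝ} (hM2 : 2 ≤ M)
    (hM : ∀ A t, |wB θ (gB θ) q D k A t| ≤ M) (ha : a ≤ n) (hb : b ≤ n)
    {F : Finset (Finset Ed)} (hF : ∀ A ∈ F, A ∈ pcs ω D ∧ ¬ IsLp D A) {N : ℕ}
    (hN : ((pcs ω D).filter (fun A => ¬ IsLp D A ∧ A ∉ F)).card ≤ N)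
    (h1 : ∀ A ∈ F, Ard q b A → ¬ Ard q a A → lo q A < k)
    (h2 : ∀ A ∈ F, Ard q a A → ¬ Ard q b A → hi q A < k) :
    ∏ A ∈ F, |wB θ (gB θ) q D k A ((if Ard q a A then θ else 0) - if Ard q b A then θ else 0)| ≤
      M ^ (2 + 2 * N) := by
  have hc_pos := hc.pos
  have hc0 : 0 < Real.cos θ := by linarith
  have hM1 : 1 ≤ M := by linarith
  have hM0 : 0 < M := by linarith
  have hcos1 : Real.cos θ ≤ 1 := Real.cos_le_one θ
  set g : Finset Ed → ℝ := fun A =>
    |wB θ (gB θ) q D k A ((if Ard q a A then θ else 0) - if Ard q b A then θ else 0)| with hg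
  by_cases h0 : ∃ A ∈ F, g A = 0
  · obtain ⟨A, hA, h⟩ := h0
    rw [prod_eq_zero hA h]
    positivity
  push Not at h0
  -- the sums of the signs over the other strands
  have hoth : ∀ P : Finset Ed → Prop, (∀ A ∈ pcs ω D, P A → ¬ IsLp D A) →
      |∑ A ∈ (pcs ω D).filter P, QB.sg q A - ∑ A ∈ F.filter P, QB.sg q A| ≤ (N : ℤ) := by
    intro P hP
    have e1 : (pcs ω D).filter P = F.filter P ∪ ((pcs ω D).filter fun A => P A ∧ A ∉ F) := by
      ext A
      simp only [mem_filter, mem_union]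
      constructor
      · rintro ⟨h3, h4⟩
        by_cases h5 : A ∈ F
        · exact Or.inl ⟨h5, h4⟩
        · exact Or.inr ⟨h3, h4, h5⟩
      · rintro (⟨h3, h4⟩ | ⟨h3, h4, -⟩)
        · exact ⟨(hF A h3).1, h4⟩
        · exact ⟨h3, h4⟩
    have e2 : Disjoint (F.filter P) ((pcs ω D).filter fun A => P A ∧ A ∉ F) := by
      rw [disjoint_left]
      intro A h3 h4
      exact (mem_filter.1 h4).2.2 (mem_filter.1 h3).1
    rw [e1, sum_union e2, add_sub_cancel_left]
    refine (sum_sg_le _).trans ?_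
    have h3 : ((pcs ω D).filter fun A => P A ∧ A ∉ F).card ≤ N := by
      refine le_trans (card_le_card fun A h4 => ?_) hN
      rw [mem_filter] at h4 ⊢
      exact ⟨h4.1, hP A h4.1 h4.2.1, h4.2.2⟩
    exact_mod_cast h3
  -- the three classes
  set P1 : Finset Ed → Prop := fun A => Ard q b A ∧ ¬ Ard q a A with hP1
  set P2 : Finset Ed → Prop := fun A => Ard q a A ∧ ¬ Ard q b A with hP2
  have hsplit : ∏ A ∈ F, g A = (∏ A ∈ F.filter P1, g A) * ((∏ A ∈ F.filter P2, g A) *
      ∏ A ∈ F.filter fun A => ¬ P1 A ∧ ¬ P2 A, g A) :=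
    prod_split fun A _ hA hA' => hA'.2 hA.1
  have k3 : ∏ A ∈ F.filter (fun A => ¬ P1 A ∧ ¬ P2 A), g A = 1 := by
    refine prod_eq_one fun A hA => ?_
    rw [mem_filter] at hA
    obtain ⟨-, h3, h4⟩ := hA
    have h5 : Ard q a A ↔ Ard q b A := by
      constructor
      · intro h; by_contra h'; exact h4 ⟨h, h'⟩
      · intro h; by_contra h'; exact h3 ⟨h, h'⟩
    simp only [hg]
    by_cases h6 : Ard q a A
    · rw [if_pos h6, if_pos (h5.1 h6), sub_self, wB_hx hx hc0, abs_one]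
    · rw [if_neg h6, if_neg (fun h => h6 (h5.2 h)), sub_self, wB_hx hx hc0, abs_one]
  have k1 : ∏ A ∈ F.filter P1, g A ≤ M ^ (1 + N) := by
    have e1 : ∀ A ∈ F.filter P1, g A = (2 * Real.cos θ) ^ QB.sg q A := by
      intro A hA
      rw [mem_filter] at hA
      obtain ⟨hA, h3, h4⟩ := hA
      have h5 := h1 A hA h3 h4
      have h6 := h0 A hA
      simp only [hg] at h6 ⊢
      rw [if_neg h4, if_pos h3, zero_sub] at h6 ⊢
      have h7 : hi q A < k := by
        by_contra h8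
        rw [wB_fw (hF A hA).2 h5 (not_lt.1 h8), abs_zero] at h6
        exact h6 rfl
      rw [wB_full hq hD hx hc0 (hF A hA).1 (hF A hA).2 h7, abs_of_pos (by positivity)]
    rw [prod_congr rfl e1]
    have e2 : ∏ A ∈ F.filter P1, (2 * Real.cos θ) ^ QB.sg q A =
        (2 * Real.cos θ) ^ ∑ A ∈ F.filter P1, QB.sg q A := by
      have h2c : (2 * Real.cos θ) ≠ 0 := by positivity
      induction F.filter P1 using Finset.induction_on with
      | empty => simp
      | insert A s hA ih => rw [prod_insert hA, sum_insert hA, zpow_add₀ h2c, ih]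
    rw [e2]
    obtain ⟨a', ha', h3'⟩ := sum_diff hq hD ω hb ha
    have h4 : |(sgm q b - sgm q a') - ∑ A ∈ F.filter P1, QB.sg q A| ≤ (N : ℤ) := by
      rw [← h3']
      convert hoth P1 fun A hA h => fun h' => ard_lp hq hD hA h' h.1
    have h5 := sgm_sub_bd hq b a'
    have h6 : -((1 + N : ℕ) : ℤ) ≤ ∑ A ∈ F.filter P1, QB.sg q A := by
      rw [abs_le] at h4 h5
      push_cast
      omega
    have hcM : (2 * Real.cos θ)⁻¹ ≤ M := by
      have h7 := hM ∅ (-θ)
      unfold wB at h7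
      rw [if_pos (show IsLp D ∅ from fun e he => absurd he (notMem_empty e)), add_neg_cancel, Real.cos_zero,
        abs_of_pos (by positivity)] at h7
      refine le_trans ?_ h7
      rw [one_div]
      exact inv_anti₀ hc0 (by linarith)
    calc (2 * Real.cos θ) ^ ∑ A ∈ F.filter P1, QB.sg q A ≤ (2 * Real.cos θ) ^ (-((1 + N : ℕ) : ℤ)) :=
          zpow_le_zpow_right_of_le_one₀ hc_pos hc.le h6
      _ = ((2 * Real.cos θ)⁻¹) ^ (1 + N) := by rw [zpow_neg, zpow_natCast, inv_pow]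
      _ ≤ M ^ (1 + N) := pow_le_pow_left₀ (by positivity) hcM _
  have k2 : ∏ A ∈ F.filter P2, g A ≤ M ^ (1 + N) := by
    have e1 : ∀ A ∈ F.filter P2, QB.sg q A = -1 := by
      intro A hA
      rw [mem_filter] at hA
      obtain ⟨hA, h3, h4⟩ := hA
      have h5 := h2 A hA h3 h4
      have h6 := h0 A hA
      simp only [hg] at h6
      rw [if_neg h4, if_pos h3, sub_zero] at h6
      rcases sg_cases (q := q) A with h7 | h7
      · rw [wB_di hq hD (hF A hA).1 (hF A hA).2 h5 h7, abs_zero] at h6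
        exact absurd rfl h6
      · exact h7
    have e2 : ∑ A ∈ F.filter P2, QB.sg q A = -((F.filter P2).card : ℤ) := by
      rw [sum_congr rfl e1, sum_const, nsmul_eq_mul]
      ring
    obtain ⟨a', ha', h3'⟩ := sum_diff hq hD ω ha hb
    have h4 : |(sgm q a - sgm q a') - ∑ A ∈ F.filter P2, QB.sg q A| ≤ (N : ℤ) := by
      rw [← h3']
      convert hoth P2 fun A hA h => fun h' => ard_lp hq hD hA h' h.1
    rw [e2] at h4
    have h5 := sgm_sub_bd hq a a'
    have h6 : (F.filter P2).card ≤ 1 + N := by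
      rw [abs_le] at h4 h5
      omega
    calc ∏ A ∈ F.filter P2, g A ≤ ∏ _A ∈ F.filter P2, M :=
          prod_le_prod (fun _ _ => abs_nonneg _) fun A _ => hM A _
      _ = M ^ (F.filter P2).card := prod_const _
      _ ≤ M ^ (1 + N) := pow_le_pow_right₀ hM1 h6
  rw [hsplit, k3, mul_one]
  calc (∏ A ∈ F.filter P1, g A) * ∏ A ∈ F.filter P2, g A ≤ M ^ (1 + N) * M ^ (1 + N) :=
        mul_le_mul k1 k2 (prod_nonneg fun _ _ => abs_nonneg _) (by positivity)
    _ = M ^ (2 + 2 * N) := by rw [← pow_add]; congr 1; ring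

end

end Vale.Agent.P167.N.QB
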