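import Vale.Agent.P167.N.Kit
import Vale.Agent.P167.N.QB.Cst
import Vale.Agent.P167.QB.Uns1

/-! generated from Vale.Agent.P167.QB.Uns1 (q < 1 port) -/

set_option autoImplicit false

namespace Vale.Agent.P167.N.QB

open Vale.Agent.P167.QB

open Finset Relation Vale.Agent.P167.BR Vale.Agent.P167.H562.SML Vale.Agent.P167.H45

open Vale.Agent.P167.E6 (IsPolygon Encloses dir face)

open Vale.Agent.P167.H718 (IsXY IsCl Cl isCl_strand side_const)

open Vale.Agent.P167.QX (lo hi exists_xy lo_xy hi_xy wB)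

open Vale.Agent.P167.H562.MAJ (bigs Sm core Sc mem_core)

open Vale.Agent.P167.H562.QM (BumpsQ WtQ Far)

variable {D Z : Finset (ℤ × ℤ)} {ω : Cfg} {n : ℕ} {q : ZMod n → ℤ × ℤ} {A B : Finset Ed}
  {a b m : ℕ} {θ K : ℝ} {k l : ℕ} {r R rc rd : ℤ} {fc fd : ℤ × ℤ → ℝ}

section

variable (hq : IsPolygon q) (hD : Encloses q D)

include hq hD

open Classical in
/-- **The far strands with negative masses.** -/
theorem far_neg (hx : 0 < Real.sin θ) (hc : Kit (2 * Real.cos θ)) {M : ℝ} (hM2 : 2 ≤ M)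
    (hMi : (2 * Real.cos θ)⁻¹ ≤ M)
    (ha : a ≤ n) (hb : b ≤ n) (hm : m ≤ n)
    {F : Finset (Finset Ed)} (hF : ∀ A ∈ F, A ∈ pcs ω D ∧ ¬ IsLp D A) {N : ℕ}
    (hN : ((pcs ω D).filter (fun A => ¬ IsLp D A ∧ A ∉ F)).card ≤ N)
    (h1 : ∀ A ∈ F, Ard q m A → ¬ Ard q a A → ¬ Ard q b A) :
    ∏ A ∈ F, |wB θ (gB θ) q D n A
      (-((if Ard q m A ∧ ¬ Ard q a A then θ else 0) + if Ard q b A then θ else 0))| ≤
      M ^ (2 + 2 * N) := by
  have hc_pos := hc.pos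
  have hc0 : 0 < Real.cos θ := by linarith
  have hoth : ∀ P : Finset Ed → Prop, (∀ A ∈ pcs ω D, P A → ¬ IsLp D A) →
      |∑ A ∈ (pcs ω D).filter P, Vale.Agent.P167.QB.sg q A - ∑ A ∈ F.filter P, Vale.Agent.P167.QB.sg q A| ≤ (N : ℤ) := by
    intro P hP
    have e1 : (pcs ω D).filter P = F.filter P ∪ ((pcs ω D).filter fun A => P A ∧ A ∉ F) := by
      ext A
      simp only [mem_filter, mem_union]
      constructor
      · rintro ⟨h3, h4⟩
        by_cases h5 : A ∈ F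
        · exact Or.inl ⟨h5, h4⟩
        · exact Or.inr ⟨h3, h4, h5⟩
      · rintro (⟨h3, h4⟩ | ⟨h3, h4, -⟩)
        · exact ⟨(hF A h3).1, h4⟩
        · exact ⟨h3, h4⟩
    have e2 : Disjoint (F.filter P) ((pcs ω D).filter fun A => P A ∧ A ∉ F) := by
      rw [disjoint_left]
      intro A h3 h4
      exact (mem_filter.1 h4).2.2 (mem_filter.1 h3).1
    rw [e1, sum_union e2, add_sub_cancel_left]
    refine (sum_sg_le _).trans ?_
    have h3 : ((pcs ω D).filter fun A => P A ∧ A ∉ F).card ≤ N := by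
      refine le_trans (card_le_card fun A h4 => ?_) hN
      rw [mem_filter] at h4 ⊢
      exact ⟨h4.1, hP A h4.1 h4.2.1, h4.2.2⟩
    exact_mod_cast h3
  set P1 : Finset Ed → Prop := fun A => Ard q m A ∧ ¬ Ard q a A with hP1
  set P2 : Finset Ed → Prop := fun A => Ard q b A with hP2
  have e1 : ∀ A ∈ F, |wB θ (gB θ) q D n A
      (-((if Ard q m A ∧ ¬ Ard q a A then θ else 0) + if Ard q b A then θ else 0))| =
      (2 * Real.cos θ) ^ ((if P1 A then Vale.Agent.P167.QB.sg q A else 0) + if P2 A then Vale.Agent.P167.QB.sg q A else 0 : ℤ) := by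
    intro A hA
    have hfull := wB_full (θ := θ) (k := n) hq hD hx hc0 (hF A hA).1 (hF A hA).2
      (hi_lt_n hq hD (hF A hA).1 (hF A hA).2)
    by_cases h3 : P1 A
    · have h4 : ¬ P2 A := h1 A hA h3.1 h3.2
      rw [if_pos h3, if_neg h4, if_pos h3, if_neg h4, add_zero, add_zero, hfull,
        abs_of_pos (by positivity)]
    · rw [if_neg h3, if_neg h3]
      by_cases h4 : P2 A
      · rw [if_pos h4, if_pos h4, zero_add, zero_add, hfull, abs_of_pos (by positivity)]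
      · rw [if_neg h4, if_neg h4, add_zero, neg_zero, wB_hx hx hc0, abs_one, add_zero, zpow_zero]
  rw [prod_congr rfl e1]
  have h2c : (2 * Real.cos θ) ≠ 0 := by positivity
  have e2 : ∏ A ∈ F, (2 * Real.cos θ) ^ ((if P1 A then Vale.Agent.P167.QB.sg q A else 0) +
      if P2 A then Vale.Agent.P167.QB.sg q A else 0 : ℤ) =
      (2 * Real.cos θ) ^ (∑ A ∈ F.filter P1, Vale.Agent.P167.QB.sg q A + ∑ A ∈ F.filter P2, Vale.Agent.P167.QB.sg q A) := by
    rw [sum_filter, sum_filter, ← sum_add_distrib]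
    exact Vale.Agent.P167.QB.prod_zpow h2c _ _
  rw [e2]
  obtain ⟨c1, hc1, k1⟩ := sum_diff hq hD ω hm ha
  obtain ⟨c2, hc2, k2⟩ := sum_diff hq hD ω hb (Nat.zero_le n)
  have h0 : ∀ A : Finset Ed, ¬ Ard q 0 A := fun A h => absurd h.1 (Nat.not_lt_zero _)
  have k2' : ∑ A ∈ (pcs ω D).filter P2, Vale.Agent.P167.QB.sg q A = sgm q b - sgm q c2 := by
    rw [← k2]
    refine sum_congr (filter_congr fun A _ => ?_) fun _ _ => rfl
    exact ⟨fun h => ⟨h, h0 A⟩, fun h => h.1⟩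
  have k3 := hoth P1 fun A hA h => fun h' => ard_lp hq hD hA h' h.1
  have k4 := hoth P2 fun A hA h => fun h' => ard_lp hq hD hA h' h
  rw [k2'] at k4
  have k5 : |(sgm q m - sgm q c1) - ∑ A ∈ F.filter P1, Vale.Agent.P167.QB.sg q A| ≤ (N : ℤ) := by
    rw [← k1]
    convert k3
  have k6 := sgm_sub_bd hq m c1
  have k7 := sgm_sub_bd hq b c2
  have k8 : -(∑ A ∈ F.filter P1, Vale.Agent.P167.QB.sg q A +
      ∑ A ∈ F.filter P2, Vale.Agent.P167.QB.sg q A) ≤ ((2 + 2 * N : ℕ) : ℤ) := by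
    rw [abs_le] at k4 k5 k6 k7
    push_cast
    omega
  have h1i : 1 ≤ (2 * Real.cos θ)⁻¹ := (one_le_inv₀ hc_pos).2 hc.le
  calc _ = ((2 * Real.cos θ)⁻¹) ^ (-(∑ A ∈ F.filter P1, Vale.Agent.P167.QB.sg q A +
        ∑ A ∈ F.filter P2, Vale.Agent.P167.QB.sg q A)) := by rw [inv_zpow', neg_neg]
    _ ≤ ((2 * Real.cos θ)⁻¹) ^ ((2 + 2 * N : ℕ) : ℤ) := zpow_le_zpow_right₀ h1i k8
    _ = ((2 * Real.cos θ)⁻¹) ^ (2 + 2 * N) := zpow_natCast _ _
    _ ≤ M ^ (2 + 2 * N) := pow_le_pow_left₀ (by positivity) hMi _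

end

end Vale.Agent.P167.N.QB
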