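import Vale.Agent.P167.N.Kit
import Vale.Agent.P167.N.H562.Q.MQ1
import Vale.Agent.P167.N.QB.Low
import Vale.Agent.P167.N.QB.Maj
import Vale.Agent.P167.N.QB.Mom
import Vale.Agent.P167.N.QB.Pr6
import Vale.Agent.P167.QB.Uns4

/-! generated from Vale.Agent.P167.QB.Uns4 (q < 1 port) -/

set_option autoImplicit false

namespace Vale.Agent.P167.N.QB

open Vale.Agent.P167.QB

open Finset Filter Topology MeasureTheory Vale.Agent.P167.BR Vale.Agent.P167.FK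

open Vale.Agent.P167.E6 (IsPolygon Encloses dir face)

open Vale.Agent.P167.FKA (Loc Ind ArmDec)

open Vale.Agent.P167.H519 (IsLim)

open Vale.Agent.P167.H562.SML

open Vale.Agent.P167.H562.MAJ (bigs Sm Sm_loc core Sc mem_core)

open Vale.Agent.P167.H562.QM

open Vale.Agent.P167.H174.ND (poly_rot encl_rot s_base)

variable {Q : ℝ} {P : Measure Cfg} {D : Finset (ℤ × ℤ)} {η ω : Cfg} {b : ℤ × ℤ} {r R : ℤ} {K θ : ℝ}
  {f g : ℤ × ℤ → ℝ} {σ : ℤ}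

/-- **Comparison of the one-point functions of different scales.** -/
theorem zC_cmp (hθ0 : 0 < θ) (hθ1 : Ang θ) (hR0 : RSW (2 * Real.cos θ))
    (hP : IsLim (2 * Real.cos θ) P) (hK : KW θ ≤ K) :
    ∃ (r0 : ℝ) (Λ : ℤ) (α C : ℝ), 1 ≤ r0 ∧ 1 ≤ Λ ∧ 0 < α ∧ 0 < C ∧
    ∀ (b : ℤ × ℤ) (r R₁ R₂ R₁' R₂' : ℤ) (f : ℤ × ℤ → ℝ), r0 ≤ r → 4 * r + 2 ≤ R₁ → Λ * R₁ ≤ R₂ →
      R₁ ≤ R₁' → R₂ ≤ R₂' → R₁' < R₂' → Bq' θ K b r f →
      |zC θ b r R₁ R₂ f - zC θ b r R₁' R₂' f| ≤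
        C * (((r : ℝ) / R₁) ^ α + ((R₁ : ℝ) / R₂) ^ α) * Nf θ K P r := by
  have hθ1_lt := hθ1.lt
  have hQ := two_cos hθ0 hθ1
  have hQ0 : 0 < 2 * Real.cos θ := hθ1.kit.pos
  have t0 : 0 ≤ Real.tan θ := Vale.Agent.P167.N.H562.QM.tan_nn hθ0 hθ1
  have hK1 : 1 ≤ K := (KW_one hθ1).trans hK
  have hM2 := two_le_MW hθ0 hθ1
  obtain ⟨C1, r1, hC1, hr1, h1⟩ := yb_mom hQ hR0 hP hK1 (MW θ) 1 (Real.tan θ)
    (by linarith) zero_le_one
  obtain ⟨Λ, α, C, hΛ, hα, hC, h2⟩ := zC_comp hθ0 hθ1 hR0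
  refine ⟨r1, Λ, α, C * C1, hr1, hΛ, hα, by positivity,
    fun b r R₁ R₂ R₁' R₂' f hr hR1 hR2 h11 h22 h12 hf => ?_⟩
  obtain ⟨hS, h1⟩ := h1 r hr
  obtain ⟨N, hN1, hN2, hN3⟩ := h1 b
  have hr8 := hS.r8
  obtain ⟨n, q, l, hq, hD, hl1, hql, hq0⟩ := hpoly b (R := 2 * R₁') (by omega)
  have hmain := h2 n q (hbox b (2 * R₁')) hq hD (l + R₁'.toNat) l r R₁ R₂ R₁' R₂' f
    (YQ (MW θ) (Real.tan θ) N (-f) (dq K r)) (C1 * Nf θ K P r) hl1 (by omega) hR1 hR2 h11 h22 h12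
    (by rw [hql]; exact Vale.Agent.P167.QB.flt_hbox (by omega))
    (by rw [hql, hq0]; exact top_notin (by omega)) (by push_cast; omega) hf.nonneg
    (fun z hz => by rw [hql]; exact sites_mono hS.core_sub (hf.supp z hz)) hf.sum
    (mul_nonneg hC1.le (Nf_pos _ _ _ _).le)
    (fun ω => (YQ_pos (by positivity) _ _ _ _ _).le) ?_ ?_ ?_
  · rw [hql] at hmain
    refine hmain.trans (le_of_eq ?_)
    ring
  · rw [hql]
    intro D' η' hF' hη' G hG0 hG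
    have h3 := hN3 D' η' false false hη' (fltQ_mn hF' (by omega)) (-f) hf.neg_abs hf.neg_supp G hG0
      (fun ω ω' hw => hG ω ω' fun v hv => hw v fun hv' => hv (hbox_mono (by omega) hv'))
      (Real.tan θ) 1 t0 le_rfl zero_le_one le_rfl
    simp only [Real.rpow_one] at h3
    rw [hf.neg_sum] at h3
    refine h3.trans (le_of_eq ?_)
    unfold Nf
    congr 3
    ring
  · rw [hql]
    intro ω
    exact (le_abs_self _).trans (FL_le (θ := θ) (σ := -1) hθ0 hθ1 hK hS (R := R₁) (by omega)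
      (Or.inr rfl) hf.neg_abs hf.neg_supp (hN2 ω))
  · rw [hql]
    intro ω
    exact (le_abs_self _).trans (FL_le (θ := θ) (σ := -1) hθ0 hθ1 hK hS (R := R₁') (by omega)
      (Or.inr rfl) hf.neg_abs hf.neg_supp (hN2 ω))

end Vale.Agent.P167.N.QB
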